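import Mathlib

/-!
P022, Artin reciprocity for cyclic extensions of number fields: definitions and literals of the
blocks.
-/

open NumberField IsDedekindDomain TensorProduct Finset

noncomputable section

namespace Vale.Agent.P022.C

/-! ### cyclic extensions and norms -/

/-- `L/K` is cyclic of degree `n`, with generator `σ` -/
structure Cyc (K : Type) {L : Type} [Field K] [Field L] [Algebra K L] (n : ℕ)
    (σ : L ≃ₐ[K] L) : Prop where
  pos : 0 < n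
  ord : orderOf σ = n
  rank : Module.finrank K L = n

/-- the action of `σ` on `R ⊗ L` -/
def tw {K L : Type} [Field K] [Field L] [Algebra K L] (R : Type) [Field R] [Algebra K R]
    (σ : L ≃ₐ[K] L) : (R ⊗[K] L) ≃ₐ[R] (R ⊗[K] L) :=
  Algebra.TensorProduct.congr AlgEquiv.refl σ

/-- `a` is a norm from `R ⊗ L` -/
def Nm {K L : Type} [Field K] [Field L] [Algebra K L] (σ : L ≃ₐ[K] L) (n : ℕ) (R : Type)
    [Field R] [Algebra K R] (a : K) : Prop :=
  ∃ y : R ⊗[K] L, ∏ i ∈ range n, tw R (σ ^ i) y = algebraMap K (R ⊗[K] L) a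

/-- `a` is a norm from `ℝ ⊗ L`, `ℝ` being a `K`-algebra through `φ` -/
def NmR {K L : Type} [Field K] [Field L] [Algebra K L] (σ : L ≃ₐ[K] L) (n : ℕ) (φ : K →+* ℝ)
    (a : K) : Prop :=
  letI := φ.toAlgebra
  Nm σ n ℝ a

/-- `a` is a local norm at all places -/
def Loc {K L : Type} [Field K] [NumberField K] [Field L] [Algebra K L] (σ : L ≃ₐ[K] L) (n : ℕ)
    (a : K) : Prop :=
  (∀ v : HeightOneSpectrum (𝓞 K), Nm σ n (v.adicCompletion K) a) ∧ ∀ φ : K →+* ℝ, NmR σ n φ a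

/-- [H90] Hilbert 90 for an algebra of finite dimension over an infinite field -/
def H90Stmt : Prop := ∀ (R B E : Type) [Field R] [Infinite R] [CommRing B] [Algebra R B]
  [Module.Finite R B] [Field E] (j : E →+* B) (s : B ≃ₐ[R] B) (τ : E ≃+* E)
  (n : ℕ) (_ : 0 < n) (_ : ∀ x, s (j x) = j (τ x)) (_ : orderOf τ = n) (_ : s ^ n = 1) (u : B)
  (_ : ∏ i ∈ range n, (s ^ i) u = 1), ∃ e : Bˣ, s e = u * e

/-- [HNTP] the Hasse norm theorem for cyclic extensions of prime degree -/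
def HNTPStmt : Prop := ∀ (K L : Type) [Field K] [NumberField K] [Field L] [NumberField L]
  [Algebra K L] (p : ℕ) (_ : p.Prime) (σ : L ≃ₐ[K] L) (_ : Cyc K p σ) (a : K) (_ : a ≠ 0)
  (_ : Loc σ p a), ∃ y : L, ∏ i ∈ range p, (σ ^ i) y = algebraMap K L a

/-- [HNT] the Hasse norm theorem for all cyclic extensions -/
def HNTStmt : Prop := ∀ (K L : Type) [Field K] [NumberField K] [Field L] [NumberField L]
  [Algebra K L] (n : ℕ) (σ : L ≃ₐ[K] L) (_ : Cyc K n σ) (a : K) (_ : a ≠ 0)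
  (_ : Loc σ n a), ∃ y : L, ∏ i ∈ range n, (σ ^ i) y = algebraMap K L a

/-! ### primes -/

/-- the additive valuation -/
def ordv {K : Type} [Field K] [NumberField K] (v : HeightOneSpectrum (𝓞 K)) (x : K) : ℤ :=
  -WithZero.log (v.valuation K x)

/-- `s` is a Frobenius of exponent `q` at `P` -/
def Frob {K L : Type} [Field K] [Field L] [Algebra K L] (s : L ≃ₐ[K] L) (q : ℕ)
    (P : Ideal (𝓞 L)) : Prop := ∀ x : 𝓞 L, s • x - x ^ q ∈ P

/-- no nontrivial power of `σ` is in the inertia group of `P` -/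
def Unr {K L : Type} [Field K] [Field L] [Algebra K L] (σ : L ≃ₐ[K] L) (P : Ideal (𝓞 L)) : Prop :=
  ∀ i : ℕ, (∀ x : 𝓞 L, (σ ^ i) • x - x ∈ P) → σ ^ i = 1

/-- the prime of `K` below `P` -/
abbrev dn (K : Type) {L : Type} [Field K] [Field L] [Algebra K L] (P : Ideal (𝓞 L)) :
    Ideal (𝓞 K) := P.comap (algebraMap (𝓞 K) (𝓞 L))

/-- [POW] elements close to `1` are `n`-th powers in the completion -/
def POWStmt : Prop := ∀ (K : Type) [Field K] [NumberField K] (v : HeightOneSpectrum (𝓞 K))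
  (n : ℕ) (_ : 0 < n) (a : K) (_ : v.valuation K (a - 1) < v.valuation K ((n : K) ^ 2)),
  ∃ y : v.adicCompletion K, y ^ n = algebraMap K (v.adicCompletion K) a

/-- [LN] local norms at an unramified place: units, and everything if the decomposition group of
`P` is trivial (`v ∣ n` allowed) -/
def LNStmt : Prop := ∀ (K L : Type) [Field K] [NumberField K] [Field L] [NumberField L]
  [Algebra K L] (n : ℕ) (σ : L ≃ₐ[K] L) (_ : Cyc K n σ) (v : HeightOneSpectrum (𝓞 K))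
  (P : Ideal (𝓞 L)) (_ : P.IsPrime) (_ : dn K P = v.asIdeal) (_ : Unr σ P) (a : K) (_ : a ≠ 0)
  (_ : v.valuation K a = 1 ∨ ∀ i : ℕ,
    Ideal.comap (RingOfIntegers.mapRingHom ((σ ^ i : L ≃ₐ[K] L) : L →+* L)) P = P → σ ^ i = 1),
  Nm σ n (v.adicCompletion K) a

/-- [UNRV] the valuation does not change at an unramified prime -/
def UNRVStmt : Prop := ∀ (K L : Type) [Field K] [NumberField K] [Field L] [NumberField L]
  [Algebra K L] [IsGalois K L] (v : HeightOneSpectrum (𝓞 K)) (w : HeightOneSpectrum (𝓞 L))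
  (_ : dn K w.asIdeal = v.asIdeal)
  (_ : ∀ g : L ≃ₐ[K] L, (∀ x : 𝓞 L, g • x - x ∈ w.asIdeal) → g = 1) (x : K),
  ordv w (algebraMap K L x) = ordv v x

/-! ### cyclotomic characters -/

/-- the character `χ` on integers, written additively -/
def ex {M n : ℕ} (χ : (ZMod M)ˣ →* Multiplicative (ZMod n)) (a : ZMod M) : ZMod n := by
  classical exact if h : IsUnit a then Multiplicative.toAdd (χ h.unit) else 0

/-- [CYC] characters of `(ℤ/M)ˣ` of `ℓ`-power order, large at given integers -/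
def CYCStmt : Prop := ∀ (ℓ : ℕ) (_ : ℓ.Prime) (r : ℕ) (A : Finset ℕ) (_ : ∀ a ∈ A, 2 ≤ a)
  (B : ℕ) (_ : B ≠ 0), ∃ (M k : ℕ) (χ : (ZMod M)ˣ →* Multiplicative (ZMod (ℓ ^ k))),
    0 < M ∧ Nat.Coprime M B ∧ Function.Surjective χ ∧
    (∀ a ∈ A, IsUnit (a : ZMod M) ∧ ∀ i : ℕ, i • ex χ (a : ZMod M) = 0 → ℓ ^ r ∣ i) ∧
    (ℓ = 2 → ex χ (-1) ≠ 0)

/-- [CYF] the cyclic cyclotomic extension attached to `χ`, linearly disjoint from `L` -/
def CYFStmt : Prop := ∀ (K L : Type) [Field K] [NumberField K] [Field L] [NumberField L]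
  [Algebra K L] (M : ℕ) (_ : 0 < M) (_ : IsCoprime (M : ℤ) (discr L)) (n : ℕ) (_ : 0 < n)
  (χ : (ZMod M)ˣ →* Multiplicative (ZMod n)) (_ : Function.Surjective χ),
  ∃ (L' : Type) (_ : Field L') (_ : NumberField L') (_ : Algebra K L') (σ : L' ≃ₐ[K] L'),
    Cyc K n σ ∧ IsField (L ⊗[K] L') ∧
    (∀ P : Ideal (𝓞 L'), P.IsPrime → P ≠ ⊥ → (M : 𝓞 L') ∉ P → Unr σ P ∧
      ∀ b : ℕ, (b : ZMod n) = ex χ (Ideal.absNorm (dn K P) : ZMod M) →
        Frob (σ ^ b) (Ideal.absNorm (dn K P)) P) ∧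
    (∀ (ρ : L' →+* ℂ) (φ : K →+* ℝ), (∀ x : K, ρ (algebraMap K L' x) = (φ x : ℂ)) →
      ∀ b : ℕ, (b : ZMod n) = ex χ (-1) → ∀ x : L', starRingEnd ℂ (ρ x) = ρ ((σ ^ b) x))

/-- [NREC] reciprocity for cyclotomic characters (the norm congruence) -/
def NRECStmt : Prop := ∀ (K : Type) [Field K] [NumberField K] (M : ℕ) (_ : 0 < M) (n : ℕ)
  (χ : (ZMod M)ˣ →* Multiplicative (ZMod n)) (b : K) (_ : b ≠ 0)
  (_ : ∀ v : HeightOneSpectrum (𝓞 K), (M : 𝓞 K) ∈ v.asIdeal →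
    v.valuation K (b - 1) ≤ v.valuation K (M : K)),
  (∑ᶠ v : HeightOneSpectrum (𝓞 K), ordv v b • ex χ (Ideal.absNorm v.asIdeal : ZMod M)) +
    Nat.card {φ : K →+* ℝ // φ b < 0} • ex χ (-1) = 0

/-! ### the crossing -/

/-- `E = L L'`, `L ∩ L' = K`: `s = σ` on `L`, `s = 1` on `L'`, `s' = 1` on `L`, `s' = σ'` on
`L'` -/
structure Cross (K : Type) {L L' E : Type} [Field K] [Field L] [Field L'] [Field E]
    [Algebra K L] [Algebra K L'] [Algebra K E] [Algebra L E] [Algebra L' E]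
    [IsScalarTower K L E] [IsScalarTower K L' E] (n n' : ℕ) (σ : L ≃ₐ[K] L)
    (σ' : L' ≃ₐ[K] L') (s s' : E ≃ₐ[K] E) : Prop where
  cyc : Cyc K n σ
  cyc' : Cyc K n' σ'
  rank : Module.finrank K E = n * n'
  sL : ∀ x : L, s (algebraMap L E x) = algebraMap L E (σ x)
  sL' : ∀ x : L', s (algebraMap L' E x) = algebraMap L' E x
  s'L : ∀ x : L, s' (algebraMap L E x) = algebraMap L E x
  s'L' : ∀ x : L', s' (algebraMap L' E x) = algebraMap L' E (σ' x)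
  ext : ∀ t : E ≃ₐ[K] E, (∀ x : L, t (algebraMap L E x) = algebraMap L E x) →
    (∀ x : L', t (algebraMap L' E x) = algebraMap L' E x) → t = 1

/-- [COMP] existence of the compositum -/
def COMPStmt : Prop := ∀ (K L L' : Type) [Field K] [NumberField K] [Field L] [NumberField L]
  [Field L'] [NumberField L'] [Algebra K L] [Algebra K L'] (n n' : ℕ) (σ : L ≃ₐ[K] L)
  (σ' : L' ≃ₐ[K] L') (_ : Cyc K n σ) (_ : Cyc K n' σ') (_ : IsField (L ⊗[K] L')),
  ∃ (E : Type) (_ : Field E) (_ : NumberField E) (_ : Algebra K E) (_ : Algebra L E)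
    (_ : Algebra L' E) (_ : IsScalarTower K L E) (_ : IsScalarTower K L' E)
    (s s' : E ≃ₐ[K] E), Cross K n n' σ σ' s s'

section

variable (K L L' E : Type) [Field K] [NumberField K] [Field L] [NumberField L] [Field L']
    [NumberField L'] [Field E] [NumberField E] [Algebra K L] [Algebra K L'] [Algebra K E]
    [Algebra L E] [Algebra L' E] [IsScalarTower K L E] [IsScalarTower K L' E]

/-- [CRS] the crossing of the norms: existence of `δ`, `β`, and comparison of the local norms -/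
def CRSStmt : Prop := ∀ (K L L' E : Type) [Field K] [NumberField K] [Field L] [NumberField L]
    [Field L'] [NumberField L'] [Field E] [NumberField E] [Algebra K L] [Algebra K L']
    [Algebra K E] [Algebra L E] [Algebra L' E] [IsScalarTower K L E] [IsScalarTower K L' E]
    (n n' : ℕ) (σ : L ≃ₐ[K] L) (σ' : L' ≃ₐ[K] L') (s s' : E ≃ₐ[K] E)
    (_ : Cross K n n' σ σ' s s') (a : K) (_ : a ≠ 0) (γ : E)
    (_ : ∏ i ∈ range n, (s ^ i) γ = algebraMap K E a),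
    ∃ (δ : E) (b : K), δ ≠ 0 ∧ b ≠ 0 ∧ s' γ * δ = γ * s δ ∧
      ∏ i ∈ range n', (s' ^ i) δ = algebraMap K E b ∧
      ∀ (R : Type) [Field R] [Infinite R] [Algebra K R], Nm σ n R a ↔ Nm σ' n' R b

/-- [DIV] the combinatorial lemma (a potential on the lattice) -/
def DIVStmt : Prop := ∀ (n n' a b : ℕ) (_ : 0 < n) (_ : 0 < n') (f g : ℕ → ℕ → ℤ) (A B : ℤ)
  (_ : ∀ i j, f i (j + 1) - f i j = g (i + 1) j - g i j)
  (_ : ∀ i j, ∑ k ∈ range n, f (i + k) j = A) (_ : ∀ i j, ∑ k ∈ range n', g i (j + k) = B)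
  (_ : ∀ i j, f (i + a) (j + b) = f i j) (_ : ∀ i j, g (i + a) (j + b) = g i j),
  ((n : ℤ) * n') ∣ a * n' * A + b * n * B

/-- [VALX] the relation of the valuations at a prime fixed by `s ^ a s' ^ b` -/
def VALXStmt : Prop := ∀ (K L L' E : Type) [Field K] [NumberField K] [Field L] [NumberField L]
    [Field L'] [NumberField L'] [Field E] [NumberField E] [Algebra K L] [Algebra K L']
    [Algebra K E] [Algebra L E] [Algebra L' E] [IsScalarTower K L E] [IsScalarTower K L' E]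
    (n n' : ℕ) (σ : L ≃ₐ[K] L) (σ' : L' ≃ₐ[K] L') (s s' : E ≃ₐ[K] E)
    (_ : Cross K n n' σ σ' s s') (x y : K) (_ : x ≠ 0) (_ : y ≠ 0) (γ δ : E)
    (_ : s' γ * δ = γ * s δ) (_ : ∏ i ∈ range n, (s ^ i) γ = algebraMap K E x)
    (_ : ∏ i ∈ range n', (s' ^ i) δ = algebraMap K E y) (w : HeightOneSpectrum (𝓞 E))
    (a b q : ℕ) (_ : Frob (s ^ a * s' ^ b) q w.asIdeal),
    ((n : ℤ) * n') ∣ a * n' * ordv w (algebraMap K E x) + b * n * ordv w (algebraMap K E y)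

/-- [FRB] Frobenius and decomposition group of an unramified prime of `E` -/
def FRBStmt : Prop := ∀ (K L L' E : Type) [Field K] [NumberField K] [Field L] [NumberField L]
    [Field L'] [NumberField L'] [Field E] [NumberField E] [Algebra K L] [Algebra K L']
    [Algebra K E] [Algebra L E] [Algebra L' E] [IsScalarTower K L E] [IsScalarTower K L' E]
    (n n' : ℕ) (σ : L ≃ₐ[K] L) (σ' : L' ≃ₐ[K] L') (s s' : E ≃ₐ[K] E)
    (_ : Cross K n n' σ σ' s s') (w : HeightOneSpectrum (𝓞 E))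
    (_ : Unr σ (dn L w.asIdeal)) (_ : Unr σ' (dn L' w.asIdeal)),
    (∀ g : E ≃ₐ[K] E, (∀ x : 𝓞 E, g • x - x ∈ w.asIdeal) → g = 1) ∧
    ∃ a b : ℕ, Frob (s ^ a * s' ^ b) (Ideal.absNorm (dn K w.asIdeal)) w.asIdeal ∧
      Frob (σ ^ a) (Ideal.absNorm (dn K w.asIdeal)) (dn L w.asIdeal) ∧
      Frob (σ' ^ b) (Ideal.absNorm (dn K w.asIdeal)) (dn L' w.asIdeal) ∧
      ∀ g : E ≃ₐ[K] E, Ideal.comap (RingOfIntegers.mapRingHom (g : E →+* E)) w.asIdeal =
        w.asIdeal → ∃ k : ℕ, g = (s ^ a * s' ^ b) ^ k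

/-- [RDN] in a cyclic extension, the valuation of a norm at an unramified prime -/
def RDNStmt : Prop := ∀ (K L : Type) [Field K] [NumberField K] [Field L] [NumberField L]
  [Algebra K L] (n : ℕ) (σ : L ≃ₐ[K] L) (_ : Cyc K n σ) (v : HeightOneSpectrum (𝓞 K))
  (P : Ideal (𝓞 L)) (_ : P.IsPrime) (_ : dn K P = v.asIdeal) (_ : Unr σ P) (b q : ℕ)
  (_ : Frob (σ ^ b) q P) (y : L) (c : K) (_ : c ≠ 0)
  (_ : ∏ i ∈ range n, (σ ^ i) y = algebraMap K L c), (n : ℤ) ∣ b * ordv v c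

end

/-- [APP] simultaneous approximation of local norms by global norms -/
def APPStmt : Prop := ∀ (K L : Type) [Field K] [NumberField K] [Field L] [NumberField L]
  [Algebra K L] (n : ℕ) (σ : L ≃ₐ[K] L) (_ : Cyc K n σ) (T : Set (HeightOneSpectrum (𝓞 K)))
  (_ : T.Finite) (b : K) (_ : b ≠ 0) (_ : ∀ v ∈ T, Nm σ n (v.adicCompletion K) b) (M : ℕ)
  (_ : M ≠ 0), ∃ (y : L) (c : K), c ≠ 0 ∧ ∏ i ∈ range n, (σ ^ i) y = algebraMap K L c ∧
    (∀ v ∈ T, v.valuation K (b / c - 1) ≤ v.valuation K (M : K)) ∧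
    ∀ φ : K →+* ℝ, NmR σ n φ b → 0 < φ (b / c)

/-- the reciprocity law for `σ`, degree `n`, with modulus `m` -/
def RecLaw {K L : Type} [Field K] [NumberField K] [Field L] [NumberField L] [Algebra K L]
    (n : ℕ) (σ : L ≃ₐ[K] L) (m : ℕ) : Prop :=
  ∀ (a : HeightOneSpectrum (𝓞 K) → ℕ)
    (_ : ∀ (v : HeightOneSpectrum (𝓞 K)) (P : Ideal (𝓞 L)), (m : 𝓞 K) ∉ v.asIdeal → P.IsPrime →
      dn K P = v.asIdeal → Frob (σ ^ a v) (Ideal.absNorm v.asIdeal) P)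
    (c : (K →+* ℝ) → ℕ)
    (_ : ∀ (φ : K →+* ℝ) (ρ : L →+* ℂ), (∀ x, ρ (algebraMap K L x) = (φ x : ℂ)) →
      ∀ x, starRingEnd ℂ (ρ x) = ρ ((σ ^ c φ) x))
    (α : 𝓞 K) (_ : α ≠ 0) (_ : (m : 𝓞 K) ∣ α - 1),
    (n : ℤ) ∣ (∑ᶠ v : HeightOneSpectrum (𝓞 K), ordv v (α : K) * a v) +
      ∑ᶠ φ ∈ {φ : K →+* ℝ | φ (α : K) < 0}, (c φ : ℤ)

/-- [RECP] reciprocity in prime power degree: the modulus is divisible exactly by the primes
below ramified primes -/
def RECPStmt : Prop := ∀ (K L : Type) [Field K] [NumberField K] [Field L] [NumberField L]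
  [Algebra K L] (ℓ r : ℕ) (_ : ℓ.Prime) (σ : L ≃ₐ[K] L) (_ : Cyc K (ℓ ^ r) σ),
  ∃ m : ℕ, m ≠ 0 ∧ (∀ p : ℕ, p.Prime → p ∣ m →
    ∃ P : Ideal (𝓞 L), P.IsPrime ∧ (p : 𝓞 L) ∈ P ∧ ¬ Unr σ P) ∧
    (∀ P : Ideal (𝓞 L), P.IsPrime → P ≠ ⊥ → (m : 𝓞 L) ∉ P → Unr σ P) ∧ RecLaw (ℓ ^ r) σ m

/-- [REC] reciprocity in every degree -/
def RECStmt : Prop := ∀ (K L : Type) [Field K] [NumberField K] [Field L] [NumberField L]
  [Algebra K L] (n : ℕ) (σ : L ≃ₐ[K] L) (_ : Cyc K n σ),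
  ∃ m : ℕ, m ≠ 0 ∧ (∀ p : ℕ, p.Prime → p ∣ m →
    ∃ P : Ideal (𝓞 L), P.IsPrime ∧ (p : 𝓞 L) ∈ P ∧ ¬ Unr σ P) ∧
    (∀ P : Ideal (𝓞 L), P.IsPrime → P ≠ ⊥ → (m : 𝓞 L) ∉ P → Unr σ P) ∧ RecLaw n σ m

/-- [RED] from prime power degree to every degree -/
def REDStmt : Prop := RECPStmt → RECStmt

end Vale.Agent.P022.C
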