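import Vale.Agent.P022.H567.Cft
import Vale.Agent.P022.H20.GalDef

/-!
P022, reciprocity for the characters of `G_K`: literals of the blocks.
-/

open NumberField IsDedekindDomain Finset Matrix

noncomputable section

namespace Vale.Agent.P022.C

/-- `g` is in the inertia group of `P` -/
def InI {K : Type} [Field K] (j : K →+* Qb) (P : Ideal (𝓞 Qb)) (g : GK j) : Prop :=
  ∀ x : 𝓞 Qb, (g : GQ) • x - x ∈ P

/-- `g` is a Frobenius at `P`, over the prime `v` of `K` -/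
def FrI {K : Type} [Field K] [NumberField K] (j : K →+* Qb) (v : HeightOneSpectrum (𝓞 K))
    (P : Ideal (𝓞 Qb)) (g : GK j) : Prop :=
  P.IsPrime ∧ below j P = v.asIdeal ∧
    ∀ x : 𝓞 Qb, (g : GQ) • x - x ^ Ideal.absNorm v.asIdeal ∈ P

/-- `g` is a complex conjugation over the real place `φ` of `K` -/
def CjI {K : Type} [Field K] (j : K →+* Qb) (φ : K →+* ℝ) (g : GK j) : Prop :=
  ∃ Φ : Qb →+* ℂ, (∀ x : K, Φ (j x) = (φ x : ℂ)) ∧
    ∀ x : Qb, Φ ((g : GQ) x) = starRingEnd ℂ (Φ x)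

/-- [FCH] reciprocity for a character `θ` of `G_K` of finite order (open kernel) -/
def FCHStmt : Prop := ∀ (K : Type) [Field K] [NumberField K] (j : K →+* Qb) (n : ℕ) (_ : 0 < n)
  (θ : GK j →* Multiplicative (ZMod n)) (_ : IsOpen {g : GK j | θ g = 1}),
  ∃ m : ℕ, m ≠ 0 ∧ (∀ p : ℕ, p.Prime → p ∣ m → ∃ P : Ideal (𝓞 Qb), P.IsPrime ∧
      (p : 𝓞 Qb) ∈ P ∧ ∃ g : GK j, InI j P g ∧ θ g ≠ 1) ∧
    (∀ P : Ideal (𝓞 Qb), P.IsPrime → P ≠ ⊥ → (m : 𝓞 Qb) ∉ P → ∀ g : GK j, InI j P g → θ g = 1) ∧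
    ∀ (f : HeightOneSpectrum (𝓞 K) → ZMod n)
      (_ : ∀ (v : HeightOneSpectrum (𝓞 K)) (P : Ideal (𝓞 Qb)) (g : GK j), (m : 𝓞 K) ∉ v.asIdeal →
        FrI j v P g → Multiplicative.toAdd (θ g) = f v)
      (c : (K →+* ℝ) → ZMod n)
      (_ : ∀ (φ : K →+* ℝ) (g : GK j), CjI j φ g → Multiplicative.toAdd (θ g) = c φ)
      (α : 𝓞 K) (_ : α ≠ 0) (_ : (m : 𝓞 K) ∣ α - 1),
      (∑ᶠ v : HeightOneSpectrum (𝓞 K), ordv v (α : K) • f v) +
        ∑ᶠ φ ∈ {φ : K →+* ℝ | φ (α : K) < 0}, c φ = 0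

/-- the elements of absolute value one -/
def UE (E : Type) [NontriviallyNormedField E] : Subgroup Eˣ where
  carrier := {x | ‖(x : E)‖ = 1}
  mul_mem' {x y} hx hy := by
    simp only [Set.mem_ofPred_eq] at hx hy ⊢
    rw [Units.val_mul, norm_mul, hx, hy, mul_one]
  one_mem' := by simp
  inv_mem' {x} hx := by
    simp only [Set.mem_ofPred_eq] at hx ⊢
    rw [Units.val_inv_eq_inv_val, norm_inv, hx, inv_one]

/-- [TPQ] the finite quotients of the group of units, as products of cyclic groups -/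
def TPQStmt : Prop := ∀ (E : Type) [NontriviallyNormedField E] [NormedAlgebra ℚ_[2] E]
  [IsUltrametricDist E] [FiniteDimensional ℚ_[2] E] (ε : ℝ) (_ : 0 < ε),
  ∃ (t : ℕ) (n : Fin t → ℕ) (l : ∀ i, UE E →* Multiplicative (ZMod (n i))) (δ : ℝ), 0 < δ ∧
    (∀ i, 0 < n i) ∧ (∀ i (x : UE E), ‖((x : Eˣ) : E) - 1‖ < δ → l i x = 1) ∧
    ∀ x : UE E, (∀ i, l i x = 1) → ‖((x : Eˣ) : E) - 1‖ < ε

/-- [CPT] a continuous character of `G_K` has absolute value one -/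
def CPTStmt : Prop := ∀ (K : Type) [Field K] [NumberField K] (j : K →+* Qb) (E : Type)
  [NontriviallyNormedField E] (χ : GK j →* Eˣ) (_ : Continuous χ) (g : GK j), χ g ∈ UE E

/-- [PSI] the multiplicative function on ideals with given values at the primes -/
def PSIStmt : Prop := ∀ (K : Type) [Field K] [NumberField K] (E : Type) [Field E]
  (f : HeightOneSpectrum (𝓞 K) → E) (_ : ∀ v, f v ≠ 0), ∃ ψ : Ideal (𝓞 K) →* E,
  (∀ v, ψ v.asIdeal = f v) ∧ ∀ α : 𝓞 K, α ≠ 0 →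
    ψ (Ideal.span {α}) = ∏ᶠ v : HeightOneSpectrum (𝓞 K), f v ^ ordv v (α : K)

/-- [FRE] Frobenius elements and complex conjugations exist in `G_K` and are unique up to
conjugation (and inertia): a character unramified at `v` has one value on them -/
def FREStmt : Prop := ∀ (K : Type) [Field K] [NumberField K] (j : K →+* Qb),
  (∀ v : HeightOneSpectrum (𝓞 K), ∃ P g, FrI j v P g) ∧
  (∀ (A : Type) [CommGroup A] (χ : GK j →* A) (v : HeightOneSpectrum (𝓞 K)),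
    (∀ P : Ideal (𝓞 Qb), P.IsPrime → below j P = v.asIdeal → ∀ g : GK j, InI j P g → χ g = 1) →
    ∀ P P' g g', FrI j v P g → FrI j v P' g' → χ g = χ g') ∧
  (∀ (A : Type) [CommGroup A] (χ : GK j →* A) (φ : K →+* ℝ) (g g' : GK j),
    CjI j φ g → CjI j φ g' → χ g = χ g') ∧
  ∀ φ : K →+* ℝ, ∃ g, CjI j φ g

/-- [GCH] reciprocity for a continuous `2`-adic character of `G_K`: `χ` is attached to a
character `ψ` of ideals, continuous with tame conductor `m`, `m` odd and divisible exactly by the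
odd primes at which `χ` ramifies -/
def GCHStmt : Prop := ∀ (K : Type) [Field K] [NumberField K] (j : K →+* Qb) (E : Type)
  [NontriviallyNormedField E] [NormedAlgebra ℚ_[2] E] [IsUltrametricDist E]
  [FiniteDimensional ℚ_[2] E] (χ : GK j →* Eˣ) (_ : Continuous χ) (S : Finset ℕ)
  (_ : ∀ p : ℕ, p.Prime → p ∉ S → ∀ P : Ideal (𝓞 Qb), P.IsPrime → (p : 𝓞 Qb) ∈ P →
    ∀ g : GK j, InI j P g → χ g = 1),
  ∃ (m : ℕ) (ψ : Ideal (𝓞 K) →* E), Odd m ∧
    (∀ p : ℕ, p.Prime → p ∣ m → ∃ P : Ideal (𝓞 Qb), P.IsPrime ∧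
      (p : 𝓞 Qb) ∈ P ∧ ∃ g : GK j, InI j P g ∧ χ g ≠ 1) ∧
    Attached j χ ψ (2 * m) ∧
    ∀ (c : (K →+* ℝ) → E) (_ : ∀ (φ : K →+* ℝ) (g : GK j), CjI j φ g → (χ g : E) = c φ)
      (ε : ℝ), 0 < ε → ∃ r : ℕ, ∀ α : 𝓞 K, α ≠ 0 → ((2 ^ r * m : ℕ) : 𝓞 K) ∣ α - 1 →
        ‖ψ (Ideal.span {α}) * (∏ᶠ φ ∈ {φ : K →+* ℝ | φ (α : K) < 0}, c φ) - 1‖ < ε

/-- [POWC] the uniformity of the tame conductor -/
def POWCStmt : Prop := ∀ (K : Type) [Field K] [NumberField K] (m m' k : ℕ) (_ : Odd m)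
  (_ : Odd m') (_ : ∀ p : ℕ, p.Prime → p ∣ m' → p ∣ m), ∃ q : ℕ, Odd q ∧
  ∀ α : 𝓞 K, ((2 ^ k * m : ℕ) : 𝓞 K) ∣ α - 1 → ((2 ^ k * m' : ℕ) : 𝓞 K) ∣ α ^ q - 1

/-- [LINE] if `r` restricted to `G_K` has a stable line over some finite extension, it is induced
from a continuous character over a finite extension, with the same ramification -/
def LINEStmt : Prop := ∀ (K : Type) [Field K] [NumberField K] (_ : Module.finrank ℚ K = 2)
  (j : K →+* Qb) (E E' : Type) [NontriviallyNormedField E] [NormedAlgebra ℚ_[2] E]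
  [FiniteDimensional ℚ_[2] E] [NontriviallyNormedField E'] [NormedAlgebra ℚ_[2] E']
  [IsUltrametricDist E'] [FiniteDimensional ℚ_[2] E'] [NormedAlgebra E E']
  [IsScalarTower ℚ_[2] E E'] (r : GQ →* GL (Fin 2) E) (_ : Continuous r)
  (_ : ∀ w : Fin 2 → E', w ≠ 0 → ∃ g : GQ, ∀ a : E',
    ((r g : Matrix (Fin 2) (Fin 2) E).map (algebraMap E E')) *ᵥ w ≠ a • w)
  (w : Fin 2 → E') (_ : w ≠ 0) (_ : ∀ g : GK j, ∃ a : E',
    ((r g : Matrix (Fin 2) (Fin 2) E).map (algebraMap E E')) *ᵥ w = a • w),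
  ∃ χ : GK j →* E'ˣ, Continuous χ ∧
    (∀ g : GK j, ((r g : Matrix (Fin 2) (Fin 2) E).map (algebraMap E E')) *ᵥ w =
      (χ g : E') • w) ∧
    ∃ c : GQ, ∀ a : E', ((r c : Matrix (Fin 2) (Fin 2) E).map (algebraMap E E')) *ᵥ w ≠ a • w

/-- [EXT] a finite extension, with its norm, containing the coordinates of a vector -/
def EXTStmt : Prop := ∀ (E : Type) [NontriviallyNormedField E] [NormedAlgebra ℚ_[2] E]
  [FiniteDimensional ℚ_[2] E] (w : Fin 2 → AlgebraicClosure E),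
  ∃ (E' : Type) (_ : NontriviallyNormedField E') (_ : NormedAlgebra ℚ_[2] E')
    (_ : IsUltrametricDist E') (_ : FiniteDimensional ℚ_[2] E') (_ : NormedAlgebra E E')
    (_ : IsScalarTower ℚ_[2] E E') (i : E' →ₐ[E] AlgebraicClosure E) (w' : Fin 2 → E'),
    ∀ a, i (w' a) = w a

end Vale.Agent.P022.C
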