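import Vale.Agent.P022.H567.Asm5
import Vale.Agent.P022.H619.HnpCft
import Vale.Agent.P022.H964.Hnt
import Vale.Agent.P022.H967.POW
import Vale.Agent.P022.H917.LN
import Vale.Agent.P022.H269.Unrv
import Vale.Agent.P022.H732.CYC
import Vale.Agent.P022.H239.CYF
import Vale.Agent.P022.H915.NREC
import Vale.Agent.P022.H477.COMP
import Vale.Agent.P022.H17.CRS
import Vale.Agent.P022.H914.Valx
import Vale.Agent.P022.H510.FRB
import Vale.Agent.P022.H352.Rdn
import Vale.Agent.P022.H180.APP
import Vale.Agent.P022.H46.RPSQ
import Vale.Agent.P022.H48.UNF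
import Vale.Agent.P022.H352.Red

/-!
P022: Artin reciprocity for all cyclic extensions of number fields.
-/

noncomputable section

namespace Vale.Agent.P022.C

/-- reciprocity, prime power degree -/
theorem RECP : RECPStmt :=
  ASM (H964.Hn.HNT H619.HNTP) H967.POW H917.LN H269.UNRV H732.CYC H239.CYF NREC H477.CF.COMP
    H17.CRS H914.VALX H510.FRB (H352.CF.RDN H269.UNRV) H180.APP H46.RP H46.RS H46.RQ H48.UNF

/-- **Artin reciprocity** for cyclic extensions of number fields -/
theorem REC : RECStmt := H352.CF.RED RECP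

end Vale.Agent.P022.C
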