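import Vale.Agent.P022.H567.Real

/-!
P022, reciprocity: preliminaries to the assembly.
-/

open NumberField IsDedekindDomain TensorProduct Finset

set_option linter.unusedSectionVars false

noncomputable section

namespace Vale.Agent.P022.C

section basic

variable {K L : Type} [Field K] [Field L] [Algebra K L] {n : ℕ} {σ : L ≃ₐ[K] L}

theorem Cyc.pow_eq_one (h : Cyc K n σ) {i : ℕ} : σ ^ i = 1 ↔ n ∣ i := by
  rw [← orderOf_dvd_iff_pow_eq_one, h.ord]

theorem Cyc.pow_eq (h : Cyc K n σ) {i j : ℕ} : σ ^ i = σ ^ j ↔ (i : ZMod n) = (j : ZMod n) := by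
  rw [pow_eq_pow_iff_modEq, h.ord, ZMod.natCast_eq_natCast_iff]

theorem frob_unique (h : Cyc K n σ) {P : Ideal (𝓞 L)} (hP : Unr σ P) {a b q : ℕ}
    (ha : Frob (σ ^ a) q P) (hb : Frob (σ ^ b) q P) : σ ^ a = σ ^ b := by
  have h1 : ∀ x : 𝓞 L, (σ ^ a) • x - (σ ^ b) • x ∈ P := by
    intro x
    have := P.sub_mem (ha x) (hb x)
    rwa [sub_sub_sub_cancel_right] at this
  have hb1 : σ ^ b * σ ^ ((n - 1) * b) = 1 := by
    rw [← pow_add, h.pow_eq_one]
    have : b + (n - 1) * b = n * b := by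
      obtain ⟨k, hk⟩ : ∃ k, n = k + 1 := ⟨n - 1, by have := h.pos; omega⟩
      subst hk
      simp
      ring
    rw [this]
    exact Dvd.intro _ rfl
  have h2 := hP (a + (n - 1) * b) (fun x => by
    have h3 := h1 ((σ ^ ((n - 1) * b)) • x)
    rw [← mul_smul, ← mul_smul, hb1, one_smul, ← pow_add] at h3
    exact h3)
  rw [pow_add] at h2
  have h3 : σ ^ ((n - 1) * b) = (σ ^ b)⁻¹ := (inv_eq_of_mul_eq_one_right hb1).symm
  rw [h3] at h2
  exact mul_inv_eq_one.mp h2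

end basic

section val

variable {K : Type} [Field K] [NumberField K]

/-- the modulus -/
def md (R : Finset ℕ) (T : ℕ) : ℕ := ∏ p ∈ R, p ^ T

theorem md_ne {R : Finset ℕ} {T : ℕ} (hR : ∀ p ∈ R, p.Prime) : md R T ≠ 0 :=
  Finset.prod_ne_zero_iff.mpr fun p hp => pow_ne_zero _ (hR p hp).ne_zero

theorem prime_of_dvd_md {R : Finset ℕ} {T : ℕ} (hR : ∀ p ∈ R, p.Prime) {p : ℕ} (hp : p.Prime)
    (h : p ∣ md R T) : p ∈ R := by
  obtain ⟨q, hq, h2⟩ := (hp.prime.dvd_finsetProd_iff _).mp h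
  have h3 := hp.dvd_of_dvd_pow h2
  rwa [(Nat.prime_dvd_prime_iff_eq hp (hR q hq)).mp h3]

theorem exists_of_md_mem {R : Finset ℕ} {T : ℕ} {A : Type} [CommRing A] {P : Ideal A}
    (hP : P.IsPrime) (h : (md R T : A) ∈ P) : ∃ p ∈ R, (p : A) ∈ P := by
  unfold md at h
  rw [Nat.cast_prod] at h
  obtain ⟨p, hp, h1⟩ := (hP.prod_mem_iff).mp h
  refine ⟨p, hp, ?_⟩
  rw [Nat.cast_pow] at h1
  exact hP.mem_of_pow_mem _ h1

theorem eq_of_prime_mem {A : Type} [CommRing A] {P : Ideal A} (hP : P.IsPrime) {p q : ℕ}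
    (hp : p.Prime) (hq : q.Prime) (h : (p : A) ∈ P) (h' : (q : A) ∈ P) : p = q := by
  by_contra hne
  have hc : Nat.Coprime p q := (Nat.coprime_primes hp hq).mpr hne
  have h1 : IsCoprime (p : ℤ) q := Nat.isCoprime_iff_coprime.mpr hc
  obtain ⟨a, b, hab⟩ := h1
  apply hP.ne_top
  rw [Ideal.eq_top_iff_one]
  have h2 : ((a : A) * p + b * q) = 1 := by exact_mod_cast congrArg (Int.cast : ℤ → A) hab
  rw [← h2]
  exact P.add_mem (P.mul_mem_left _ h) (P.mul_mem_left _ h')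

theorem val_nat_le (v : HeightOneSpectrum (𝓞 K)) (a : ℕ) : v.valuation K (a : K) ≤ 1 := by
  have := v.valuation_le_one (K := K) (a : 𝓞 K)
  simpa using this

theorem val_nat_lt {v : HeightOneSpectrum (𝓞 K)} {a : ℕ} :
    v.valuation K (a : K) < 1 ↔ (a : 𝓞 K) ∈ v.asIdeal := by
  have h1 : (a : K) = algebraMap (𝓞 K) K (a : 𝓞 K) := by simp
  rw [h1, HeightOneSpectrum.valuation_lt_one_iff_mem]

theorem val_nat_eq_one {v : HeightOneSpectrum (𝓞 K)} {a : ℕ} (h : (a : 𝓞 K) ∉ v.asIdeal) :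
    v.valuation K (a : K) = 1 :=
  le_antisymm (val_nat_le v a) (not_lt.mp fun h1 => h (val_nat_lt.mp h1))

theorem val_sub_le {v : HeightOneSpectrum (𝓞 K)} {m : ℕ} {x : K}
    (h : ∃ y : 𝓞 K, x = m * (y : K)) : v.valuation K x ≤ v.valuation K (m : K) := by
  obtain ⟨y, rfl⟩ := h
  rw [map_mul]
  exact mul_le_of_le_one_right' (v.valuation_le_one y)

/-- at the primes of the modulus -/
theorem val_md_lt {R : Finset ℕ} (hR : ∀ p ∈ R, p.Prime) {ℓ r : ℕ} (hℓ : ℓ.Prime)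
    {v : HeightOneSpectrum (𝓞 K)} (h : (md R (2 * r + 1) : 𝓞 K) ∈ v.asIdeal) :
    v.valuation K (md R (2 * r + 1) : K) < v.valuation K (((ℓ ^ r : ℕ) : K) ^ 2) := by
  obtain ⟨p, hp, hpv⟩ := exists_of_md_mem v.isPrime h
  have h0 : v.valuation K (p : K) ≠ 0 :=
    (Valuation.ne_zero_iff _).mpr (by exact_mod_cast (hR p hp).ne_zero)
  have h1 : v.valuation K (md R (2 * r + 1) : K) ≤ v.valuation K (p : K) ^ (2 * r + 1) := by
    unfold md
    rw [← Finset.mul_prod_erase R _ hp, Nat.cast_mul, map_mul, Nat.cast_pow, map_pow]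
    exact mul_le_of_le_one_right' (val_nat_le v _)
  have hlt := val_nat_lt.mpr hpv
  refine lt_of_le_of_lt h1 ?_
  by_cases hl : (ℓ : 𝓞 K) ∈ v.asIdeal
  · have he := eq_of_prime_mem v.isPrime (hR p hp) hℓ hpv hl
    subst he
    rw [Nat.cast_pow, ← pow_mul, map_pow, mul_comm r 2, pow_succ]
    calc v.valuation K (p : K) ^ (2 * r) * v.valuation K (p : K)
        < v.valuation K (p : K) ^ (2 * r) * 1 := by
          apply mul_lt_mul_of_pos_left hlt
          exact pow_pos (zero_lt_iff.mpr h0) _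
      _ = _ := mul_one _
  · rw [Nat.cast_pow, ← pow_mul, map_pow, val_nat_eq_one hl, one_pow]
    exact pow_lt_one₀ zero_le hlt (by omega)

theorem ordv_eq_zero {v : HeightOneSpectrum (𝓞 K)} {x : K} (h : v.valuation K x = 1) :
    ordv v x = 0 := by
  unfold ordv
  rw [h]
  simp

theorem ordv_mul {v : HeightOneSpectrum (𝓞 K)} {x y : K} (hx : x ≠ 0) (hy : y ≠ 0) :
    ordv v (x * y) = ordv v x + ordv v y := by
  unfold ordv
  rw [map_mul, WithZero.log_mul ((Valuation.ne_zero_iff _).mpr hx)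
    ((Valuation.ne_zero_iff _).mpr hy)]
  ring

theorem ordv_div {v : HeightOneSpectrum (𝓞 K)} {x y : K} (hx : x ≠ 0) (hy : y ≠ 0) :
    ordv v (x / y) = ordv v x - ordv v y := by
  have h := ordv_mul (v := v) (div_ne_zero hx hy) hy
  rw [div_mul_cancel₀ _ hy] at h
  omega

theorem val_one_of_sub {v : HeightOneSpectrum (𝓞 K)} {x : K} (h : v.valuation K (x - 1) < 1) :
    v.valuation K x = 1 := by
  have h1 : x = 1 + (x - 1) := by ring
  rw [h1]
  exact (v.valuation K).map_one_add_of_lt h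

theorem val_one_of_notMem {v : HeightOneSpectrum (𝓞 K)} {x : 𝓞 K} (h : x ∉ v.asIdeal) :
    v.valuation K (x : K) = 1 :=
  le_antisymm (v.valuation_le_one x) (not_lt.mp fun h1 =>
    h ((v.valuation_lt_one_iff_mem x).mp h1))

/-- only finitely many primes contain a nonzero integer -/
theorem finite_mem {x : 𝓞 K} (hx : x ≠ 0) :
    {v : HeightOneSpectrum (𝓞 K) | x ∈ v.asIdeal}.Finite := by
  have h := Ideal.finite_factors (I := Ideal.span {x}) (by simpa using hx)
  refine h.subset fun v hv => ?_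
  simpa [Ideal.dvd_span_singleton] using hv

end val

end Vale.Agent.P022.C
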