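import Vale.Agent.P022.H567.Asm1

/-!
P022, reciprocity: the fields of the crossing, local norms.
-/

open NumberField IsDedekindDomain TensorProduct Finset

set_option linter.unusedSectionVars false
set_option linter.style.haveILetI false

noncomputable section

namespace Vale.Agent.P022.C

/-! ### local norms of `n`-th powers -/

section nm

variable {K L : Type} [Field K] [Field L] [Algebra K L] {n : ℕ} {σ : L ≃ₐ[K] L}

theorem tw_tmul_one {R : Type} [Field R] [Algebra K R] (r : R) :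
    tw R σ (r ⊗ₜ 1) = r ⊗ₜ 1 := by
  unfold tw
  simp

theorem nm_of_pow {R : Type} [Field R] [Algebra K R] {a : K} (y : R)
    (h : y ^ n = algebraMap K R a) : Nm σ n R a := by
  refine ⟨y ⊗ₜ 1, ?_⟩
  have h1 : ∀ i ∈ range n, tw R (σ ^ i) (y ⊗ₜ[K] (1 : L)) = y ⊗ₜ 1 := fun i _ => tw_tmul_one y
  rw [Finset.prod_congr rfl h1, Finset.prod_const, Finset.card_range,
    Algebra.TensorProduct.tmul_pow, h, one_pow]
  rfl

theorem nmR_of_pow {φ : K →+* ℝ} {a : K} (y : ℝ) (h : y ^ n = φ a) : NmR σ n φ a := by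
  letI := φ.toAlgebra
  exact nm_of_pow (R := ℝ) y h

end nm

/-! ### primes above and below -/

section dn

variable {K L : Type} [Field K] [NumberField K] [Field L] [NumberField L] [Algebra K L]

theorem mem_dn {P : Ideal (𝓞 L)} {x : 𝓞 K} :
    x ∈ dn K P ↔ algebraMap (𝓞 K) (𝓞 L) x ∈ P := Iff.rfl

theorem nat_mem_dn {P : Ideal (𝓞 L)} {x : ℕ} : (x : 𝓞 K) ∈ dn K P ↔ (x : 𝓞 L) ∈ P := by
  rw [mem_dn, map_natCast]

theorem dn_prime {P : Ideal (𝓞 L)} (h : P.IsPrime) : (dn K P).IsPrime := Ideal.comap_isPrime _ _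

theorem dn_ne_bot {P : Ideal (𝓞 L)} (h : P ≠ ⊥) : dn K P ≠ ⊥ := by
  have : Algebra.IsIntegral (𝓞 K) (𝓞 L) := inferInstance
  exact Ideal.comap_ne_bot_of_integral_mem (R := 𝓞 K) (x := (Submodule.exists_mem_ne_zero_of_ne_bot h).choose)
    (Submodule.exists_mem_ne_zero_of_ne_bot h).choose_spec.2
    (Submodule.exists_mem_ne_zero_of_ne_bot h).choose_spec.1 (Algebra.IsIntegral.isIntegral _)

theorem exists_above (v : HeightOneSpectrum (𝓞 K)) (L : Type) [Field L] [NumberField L]
    [Algebra K L] : ∃ w : HeightOneSpectrum (𝓞 L), dn K w.asIdeal = v.asIdeal := by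
  have : Algebra.IsIntegral (𝓞 K) (𝓞 L) := inferInstance
  have hinj : Function.Injective (algebraMap (𝓞 K) (𝓞 L)) :=
    FaithfulSMul.algebraMap_injective _ _
  obtain ⟨Q, -, hQ, hQv⟩ := Ideal.exists_ideal_over_prime_of_isIntegral (S := 𝓞 L) v.asIdeal ⊥ (by
    intro x hx
    rw [Ideal.mem_comap, Ideal.mem_bot] at hx
    have : x = 0 := hinj (by rw [hx, map_zero])
    rw [this]
    exact zero_mem _)
  refine ⟨⟨Q, hQ, ?_⟩, hQv⟩
  rintro rfl
  apply v.ne_bot
  rw [← hQv, ← RingHom.ker_eq_comap_bot, (RingHom.injective_iff_ker_eq_bot _).mp hinj]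

theorem exists_below (K : Type) [Field K] [NumberField K] [Algebra K L]
    (w : HeightOneSpectrum (𝓞 L)) : ∃ v : HeightOneSpectrum (𝓞 K), dn K w.asIdeal = v.asIdeal :=
  ⟨⟨dn K w.asIdeal, dn_prime w.isPrime, dn_ne_bot w.ne_bot⟩, rfl⟩

theorem dn_dn {E : Type} [Field E] [NumberField E] [Algebra L E] [Algebra K E]
    [IsScalarTower K L E] (P : Ideal (𝓞 E)) : dn K (dn L P) = dn K P := by
  ext x
  rw [mem_dn, mem_dn, mem_dn]
  have : algebraMap (𝓞 L) (𝓞 E) (algebraMap (𝓞 K) (𝓞 L) x) = algebraMap (𝓞 K) (𝓞 E) x := by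
    apply RingOfIntegers.ext
    exact (IsScalarTower.algebraMap_apply K L E (x : K)).symm
  rw [this]

end dn

instance {K : Type} [Field K] [NumberField K] (v : HeightOneSpectrum (𝓞 K)) :
    Infinite (v.adicCompletion K) :=
  Infinite.of_injective (algebraMap K (v.adicCompletion K)) (algebraMap K _).injective

/-! ### the crossing -/

section cross

variable {K L L' E : Type} [Field K] [NumberField K] [Field L] [NumberField L] [Field L']
    [NumberField L'] [Field E] [NumberField E] [Algebra K L] [Algebra K L'] [Algebra K E]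
    [Algebra L E] [Algebra L' E] [IsScalarTower K L E] [IsScalarTower K L' E] {n n' : ℕ}
    {σ : L ≃ₐ[K] L} {σ' : L' ≃ₐ[K] L'} {s s' : E ≃ₐ[K] E}

namespace Cross

variable (C : Cross K n n' σ σ' s s')
include C

theorem sL_pow (i : ℕ) (x : L) : (s ^ i) (algebraMap L E x) = algebraMap L E ((σ ^ i) x) := by
  induction i generalizing x with
  | zero => rfl
  | succ i ih => rw [pow_succ, pow_succ, AlgEquiv.mul_apply, AlgEquiv.mul_apply, C.sL, ih]

theorem sL'_pow (i : ℕ) (x : L') : (s ^ i) (algebraMap L' E x) = algebraMap L' E x := by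
  induction i generalizing x with
  | zero => rfl
  | succ i ih => rw [pow_succ, AlgEquiv.mul_apply, C.sL', ih]

theorem s'L_pow (i : ℕ) (x : L) : (s' ^ i) (algebraMap L E x) = algebraMap L E x := by
  induction i generalizing x with
  | zero => rfl
  | succ i ih => rw [pow_succ, AlgEquiv.mul_apply, C.s'L, ih]

theorem s'L'_pow (i : ℕ) (x : L') :
    (s' ^ i) (algebraMap L' E x) = algebraMap L' E ((σ' ^ i) x) := by
  induction i generalizing x with
  | zero => rfl
  | succ i ih => rw [pow_succ, pow_succ, AlgEquiv.mul_apply, AlgEquiv.mul_apply, C.s'L', ih]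

theorem s_pow_eq_one {i : ℕ} : s ^ i = 1 ↔ σ ^ i = 1 := by
  constructor
  · intro h
    ext x
    apply (algebraMap L E).injective
    rw [← C.sL_pow, h]
    rfl
  · intro h
    refine C.ext _ (fun x => ?_) (fun x => C.sL'_pow i x)
    rw [C.sL_pow, h]
    rfl

theorem eq_one_iff {i j : ℕ} : s ^ i * s' ^ j = 1 ↔ σ ^ i = 1 ∧ σ' ^ j = 1 := by
  have hL : ∀ x : L, (s ^ i * s' ^ j) (algebraMap L E x) = algebraMap L E ((σ ^ i) x) := by
    intro x
    rw [AlgEquiv.mul_apply, C.s'L_pow, C.sL_pow]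
  have hL' : ∀ x : L', (s ^ i * s' ^ j) (algebraMap L' E x) = algebraMap L' E ((σ' ^ j) x) := by
    intro x
    rw [AlgEquiv.mul_apply, C.s'L'_pow, C.sL'_pow]
  constructor
  · intro h
    constructor
    · ext x
      apply (algebraMap L E).injective
      rw [← hL, h]
      rfl
    · ext x
      apply (algebraMap L' E).injective
      rw [← hL', h]
      rfl
  · rintro ⟨h1, h2⟩
    refine C.ext _ (fun x => ?_) (fun x => ?_)
    · rw [hL, h1]; rfl
    · rw [hL', h2]; rfl

theorem comm : s * s' = s' * s := by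
  have h : (s' * s)⁻¹ * (s * s') = 1 := by
    refine C.ext _ (fun x => ?_) (fun x => ?_)
    · rw [AlgEquiv.mul_apply, AlgEquiv.mul_apply, C.s'L, C.sL]
      have : algebraMap L E (σ x) = (s' * s) (algebraMap L E x) := by
        rw [AlgEquiv.mul_apply, C.sL, C.s'L]
      rw [this, ← AlgEquiv.mul_apply, inv_mul_cancel]
      rfl
    · rw [AlgEquiv.mul_apply, AlgEquiv.mul_apply, C.s'L', C.sL']
      have : algebraMap L' E (σ' x) = (s' * s) (algebraMap L' E x) := by
        rw [AlgEquiv.mul_apply, C.sL', C.s'L']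
      rw [this, ← AlgEquiv.mul_apply, inv_mul_cancel]
      rfl
  exact (inv_mul_eq_one.mp h).symm

theorem galois : IsGalois K E := by
  have hn := C.cyc.pos
  have hn' := C.cyc'.pos
  have hinj : Function.Injective
      (fun p : Fin n × Fin n' => s ^ (p.1 : ℕ) * s' ^ (p.2 : ℕ)) := by
    rintro ⟨⟨i, hi⟩, ⟨j, hj⟩⟩ ⟨⟨i', hi'⟩, ⟨j', hj'⟩⟩ h
    simp only at h
    have h1 : σ ^ i = σ ^ i' := by
      ext x
      apply (algebraMap L E).injective
      have := congrArg (fun g : E ≃ₐ[K] E => g (algebraMap L E x)) h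
      simpa only [AlgEquiv.mul_apply, C.s'L_pow, C.sL_pow] using this
    have h2 : σ' ^ j = σ' ^ j' := by
      ext x
      apply (algebraMap L' E).injective
      have := congrArg (fun g : E ≃ₐ[K] E => g (algebraMap L' E x)) h
      simpa only [AlgEquiv.mul_apply, C.s'L'_pow, C.sL'_pow] using this
    rw [pow_eq_pow_iff_modEq, C.cyc.ord] at h1
    rw [pow_eq_pow_iff_modEq, C.cyc'.ord] at h2
    have h3 : i = i' := Nat.ModEq.eq_of_lt_of_lt h1 hi hi'
    have h4 : j = j' := Nat.ModEq.eq_of_lt_of_lt h2 hj hj'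
    subst h3 h4
    rfl
  have hfd : FiniteDimensional K E := Module.finite_of_finrank_pos (by
    rw [C.rank]; exact Nat.mul_pos hn hn')
  apply IsGalois.of_card_aut_eq_finrank
  apply le_antisymm
  · rw [Nat.card_eq_fintype_card]
    exact AlgEquiv.card_le
  · have h1 := Nat.card_le_card_of_injective _ hinj
    rw [Nat.card_prod, Nat.card_fin, Nat.card_fin] at h1
    rw [C.rank]
    exact h1

/-- `s` over `L'` -/
def sl : E ≃ₐ[L'] E := AlgEquiv.ofRingEquiv (f := (s : E ≃+* E)) (fun x => C.sL' x)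

theorem sl_apply (x : E) : C.sl x = s x := rfl

theorem sl_pow_apply (i : ℕ) (x : E) : (C.sl ^ i) x = (s ^ i) x := by
  induction i generalizing x with
  | zero => rfl
  | succ i ih => rw [pow_succ, pow_succ, AlgEquiv.mul_apply, AlgEquiv.mul_apply, ih, C.sl_apply]

theorem sl_pow_eq_one {i : ℕ} : C.sl ^ i = 1 ↔ σ ^ i = 1 := by
  rw [← C.s_pow_eq_one]
  constructor
  · intro h
    ext x
    rw [← C.sl_pow_apply, h]
    rfl
  · intro h
    ext x
    rw [C.sl_pow_apply, h]
    rfl

theorem cyc_sl : Cyc L' n C.sl where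
  pos := C.cyc.pos
  ord := by
    have h : ∀ i, n ∣ i ↔ C.sl ^ i = 1 := fun i => by rw [C.sl_pow_eq_one, C.cyc.pow_eq_one]
    apply Nat.dvd_antisymm
    · exact orderOf_dvd_of_pow_eq_one ((h n).mp dvd_rfl)
    · exact (h _).mpr (pow_orderOf_eq_one _)
  rank := by
    have h1 := Module.finrank_mul_finrank K L' E
    rw [C.rank, C.cyc'.rank, mul_comm n] at h1
    exact Nat.eq_of_mul_eq_mul_left C.cyc'.pos h1

theorem sl_smul (i : ℕ) (x : 𝓞 E) : (C.sl ^ i) • x = (s ^ i) • x :=
  RingOfIntegers.ext (C.sl_pow_apply i x)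

theorem unr_sl {P : Ideal (𝓞 E)} (h : Unr σ (dn L P)) : Unr C.sl P := by
  intro i hi
  rw [C.sl_pow_eq_one]
  apply h i
  intro x
  rw [mem_dn, map_sub]
  have h1 := hi (algebraMap (𝓞 L) (𝓞 E) x)
  have h2 : algebraMap (𝓞 L) (𝓞 E) ((σ ^ i) • x) = (C.sl ^ i) • (algebraMap (𝓞 L) (𝓞 E) x) := by
    apply RingOfIntegers.ext
    rw [C.sl_smul]
    exact (C.sL_pow i (x : L)).symm
  rw [h2]
  exact h1

end Cross

end cross

end Vale.Agent.P022.C
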