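import Vale.Agent.P022.H567.Asm2

/-!
P022, reciprocity: `α` is a local norm from `E/L'` everywhere.
-/

open NumberField IsDedekindDomain TensorProduct Finset

set_option linter.unusedSectionVars false
set_option linter.style.haveILetI false

noncomputable section

namespace Vale.Agent.P022.C

/-- `b` local norm at the primes of the modulus -/
theorem nm_of_md (pow : POWStmt) {K L : Type} [Field K] [NumberField K] [Field L] [Algebra K L]
    {σ : L ≃ₐ[K] L} {R : Finset ℕ} (hR : ∀ p ∈ R, p.Prime) {ℓ r : ℕ} (hℓ : ℓ.Prime)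
    {v : HeightOneSpectrum (𝓞 K)} (hv : (md R (2 * r + 1) : 𝓞 K) ∈ v.asIdeal) {a : K}
    (ha : v.valuation K (a - 1) ≤ v.valuation K (md R (2 * r + 1) : K)) :
    Nm σ (ℓ ^ r) (v.adicCompletion K) a := by
  obtain ⟨y, hy⟩ := pow K v (ℓ ^ r) (Nat.pow_pos hℓ.pos) a
    (lt_of_le_of_lt ha (val_md_lt hR hℓ hv))
  exact nm_of_pow y hy

section

variable {K L L' E : Type} [Field K] [NumberField K] [Field L] [NumberField L] [Field L']
    [NumberField L'] [Field E] [NumberField E] [Algebra K L] [Algebra K L'] [Algebra K E]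
    [Algebra L E] [Algebra L' E] [IsScalarTower K L E] [IsScalarTower K L' E] {n n' : ℕ}
    {σ : L ≃ₐ[K] L} {σ' : L' ≃ₐ[K] L'} {s s' : E ≃ₐ[K] E}

/-- a prime of `E` at which the integer `a` is large: the decomposition group over `L'` is
trivial -/
theorem Cross.dec_trivial (C : Cross K n n' σ σ' s s') (frb : FRBStmt)
    (w : HeightOneSpectrum (𝓞 E)) (hL : Unr σ (dn L w.asIdeal)) (hL' : Unr σ' (dn L' w.asIdeal))
    {e : ℕ} (he : Frob (σ' ^ e) (Ideal.absNorm (dn K w.asIdeal)) (dn L' w.asIdeal))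
    (hbig : ∀ k : ℕ, n' ∣ e * k → n ∣ k) (i : ℕ)
    (hi : Ideal.comap (RingOfIntegers.mapRingHom ((C.sl ^ i : E ≃ₐ[L'] E) : E →+* E)) w.asIdeal
      = w.asIdeal) : C.sl ^ i = 1 := by
  obtain ⟨-, a, b, -, ha, hb, hdec⟩ := frb K L L' E n n' σ σ' s s' C w hL hL'
  have h1 : Ideal.comap (RingOfIntegers.mapRingHom ((s ^ i : E ≃ₐ[K] E) : E →+* E)) w.asIdeal
      = w.asIdeal := by
    have h2 : ((s ^ i : E ≃ₐ[K] E) : E →+* E) = ((C.sl ^ i : E ≃ₐ[L'] E) : E →+* E) := by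
      ext x
      exact (C.sl_pow_apply i x).symm
    rw [h2]
    exact hi
  obtain ⟨k, hk⟩ := hdec (s ^ i) h1
  have hcomm : Commute (s ^ a) (s' ^ b) := (show Commute s s' from C.comm).pow_pow a b
  rw [hcomm.mul_pow, ← pow_mul, ← pow_mul] at hk
  -- restrict to `L'`
  have h3 : σ' ^ (b * k) = 1 := by
    ext x
    apply (algebraMap L' E).injective
    have := congrArg (fun g : E ≃ₐ[K] E => g (algebraMap L' E x)) hk
    simp only [AlgEquiv.mul_apply, C.s'L'_pow, C.sL'_pow] at this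
    exact this.symm
  have h4 : σ ^ i = σ ^ (a * k) := by
    ext x
    apply (algebraMap L E).injective
    have := congrArg (fun g : E ≃ₐ[K] E => g (algebraMap L E x)) hk
    simp only [AlgEquiv.mul_apply, C.s'L_pow, C.sL_pow] at this
    exact this
  have h5 : σ' ^ b = σ' ^ e := frob_unique C.cyc' hL' hb he
  rw [pow_mul, h5, ← pow_mul, C.cyc'.pow_eq_one] at h3
  rw [C.sl_pow_eq_one, h4, C.cyc.pow_eq_one]
  exact (hbig k h3).mul_left a

/-- `α` is a local norm from `E/L'` at all finite places -/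
theorem Cross.loc_fin (C : Cross K n n' σ σ' s s') (pow : POWStmt) (ln : LNStmt) (frb : FRBStmt)
    {ℓ r : ℕ} (hℓ : ℓ.Prime) (hn : n = ℓ ^ r) {R : Finset ℕ} (hR : ∀ p ∈ R, p.Prime)
    (hu : ∀ P : Ideal (𝓞 L), P.IsPrime → P ≠ ⊥ → (∀ p ∈ R, (p : 𝓞 L) ∉ P) → Unr σ P)
    {α : 𝓞 K} (hα : α ≠ 0) (hm : (md R (2 * r + 1) : 𝓞 K) ∣ α - 1)
    (hbig : ∀ (P : Ideal (𝓞 L')), P.IsPrime → P ≠ ⊥ → α ∈ dn K P → Unr σ' P ∧ ∃ e : ℕ,
      Frob (σ' ^ e) (Ideal.absNorm (dn K P)) P ∧ ∀ k : ℕ, n' ∣ e * k → n ∣ k)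
    (w : HeightOneSpectrum (𝓞 L')) :
    Nm C.sl n (w.adicCompletion L') (algebraMap K L' (α : K)) := by
  by_cases hw : (md R (2 * r + 1) : 𝓞 L') ∈ w.asIdeal
  · subst hn
    apply nm_of_md pow hR hℓ hw
    obtain ⟨y, hy⟩ := hm
    apply val_sub_le
    refine ⟨algebraMap (𝓞 K) (𝓞 L') y, ?_⟩
    have h1 : (α : K) - 1 = (md R (2 * r + 1) : K) * (y : K) := by
      have := congrArg (algebraMap (𝓞 K) K) hy
      simpa using this
    have h2 := congrArg (algebraMap K L') h1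
    rw [map_sub, map_one, map_mul, map_natCast] at h2
    exact h2
  · obtain ⟨u, hu1⟩ := exists_above w E
    have hLu : Unr σ (dn L u.asIdeal) := by
      apply hu _ (dn_prime u.isPrime) (dn_ne_bot u.ne_bot)
      intro p hp hpu
      apply hw
      have h1 : (p : 𝓞 L') ∈ w.asIdeal := by
        rw [← hu1, nat_mem_dn]
        exact nat_mem_dn.mp hpu
      have h2 : p ∣ md R (2 * r + 1) :=
        (dvd_pow_self p (by omega)).trans (Finset.dvd_prod_of_mem (fun q => q ^ (2 * r + 1)) hp)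
      obtain ⟨t, ht⟩ := h2
      rw [ht, Nat.cast_mul]
      exact w.asIdeal.mul_mem_right _ h1
    refine ln L' E n C.sl C.cyc_sl w u.asIdeal u.isPrime hu1 (C.unr_sl hLu) _ ?_ ?_
    · rw [Ne, map_eq_zero]
      simpa using hα
    · by_cases hαw : algebraMap (𝓞 K) (𝓞 L') α ∈ w.asIdeal
      · right
        have hαw' : α ∈ dn K w.asIdeal := hαw
        obtain ⟨h1, e, he, hk⟩ := hbig w.asIdeal w.isPrime w.ne_bot hαw'
        have h2 : dn L' u.asIdeal = w.asIdeal := hu1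
        have h3 : dn K u.asIdeal = dn K w.asIdeal := by rw [← h2, dn_dn]
        refine C.dec_trivial frb u hLu (by rw [h2]; exact h1) (e := e) ?_ hk
        rw [h2, h3]
        exact he
      · left
        exact val_one_of_notMem hαw

/-- the real places of `L'` -/
theorem Cross.loc_real (C : Cross K n n' σ σ' s s') {ℓ r : ℕ} (hℓ : ℓ.Prime) (hn : n = ℓ ^ r)
    (hcx : ℓ = 2 → ∀ φ : K →+* ℝ, ∃ e : ℕ, Cj σ' φ e ∧ σ' ^ e ≠ 1) (a : L') (φ : L' →+* ℝ) :
    NmR C.sl n φ a := by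
  by_cases h2 : ℓ = 2
  · exfalso
    obtain ⟨e, he, hne⟩ := hcx h2 (φ.comp (algebraMap K L'))
    apply hne
    ext x
    have h1 := he (Complex.ofRealHom.comp φ) (fun x => rfl) x
    have h3 : starRingEnd ℂ (Complex.ofRealHom.comp φ x) = Complex.ofRealHom.comp φ x :=
      Complex.conj_ofReal _
    rw [h3] at h1
    exact ((Complex.ofRealHom.comp φ).injective h1).symm
  · have hodd : Odd n := by
      rw [hn]
      exact (hℓ.odd_of_ne_two h2).pow
    have hn0 : n ≠ 0 := C.cyc.pos.ne'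
    rcases le_total 0 (φ a) with h | h
    · exact nmR_of_pow ((φ a) ^ ((n : ℝ)⁻¹)) (Real.rpow_inv_natCast_pow h hn0)
    · refine nmR_of_pow (-((-φ a) ^ ((n : ℝ)⁻¹))) ?_
      rw [hodd.neg_pow, Real.rpow_inv_natCast_pow (by linarith) hn0, neg_neg]

end

end Vale.Agent.P022.C
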