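import Vale.Agent.P022.H567.Asm3

/-!
P022, reciprocity: the terms of the sum.
-/

open NumberField IsDedekindDomain TensorProduct Finset

set_option linter.unusedSectionVars false
set_option linter.style.haveILetI false

noncomputable section

namespace Vale.Agent.P022.C

/-- finite support -/
theorem finite_supp {K : Type} [Field K] [NumberField K] {x : K} (hx : x ≠ 0) :
    {v : HeightOneSpectrum (𝓞 K) | ordv v x ≠ 0}.Finite := by
  obtain ⟨p, q, hq, hpq⟩ := IsFractionRing.div_surjective (A := 𝓞 K) x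
  have hq0 : q ≠ 0 := nonZeroDivisors.ne_zero hq
  have hp0 : p ≠ 0 := by
    rintro rfl
    apply hx
    rw [← hpq, map_zero, zero_div]
  refine ((finite_mem hp0).union (finite_mem hq0)).subset fun v hv => ?_
  by_contra h
  rw [Set.mem_union, not_or] at h
  obtain ⟨h1, h2⟩ := h
  apply hv
  apply ordv_eq_zero
  rw [← hpq, map_div₀]
  have h3 := val_one_of_notMem (v := v) h1
  have h4 := val_one_of_notMem (v := v) h2
  change v.valuation K (p : K) / v.valuation K (q : K) = 1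
  rw [h3, h4, div_one]

theorem dvd_aux {n n' o1 o2 o3 a a' e b : ℤ} (h1 : n * n' ∣ a' * n' * o1 + b * n * o2)
    (h2 : n' ∣ b * o3) (h3 : n ∣ a - a') (h4 : n' ∣ e - b) :
    n * n' ∣ n' * (o1 * a) + n * ((o2 - o3) * e) := by
  obtain ⟨t1, h1⟩ := h1
  obtain ⟨t2, h2⟩ := h2
  obtain ⟨t3, h3⟩ := h3
  obtain ⟨t4, h4⟩ := h4
  refine ⟨t1 + o1 * t3 + o2 * t4 - t2 - o3 * t4, ?_⟩
  have ha : a = a' + n * t3 := by linarith
  have he : e = b + n' * t4 := by linarith
  subst ha he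
  linear_combination h1 - n * h2

section

variable {K L L' E : Type} [Field K] [NumberField K] [Field L] [NumberField L] [Field L']
    [NumberField L'] [Field E] [NumberField E] [Algebra K L] [Algebra K L'] [Algebra K E]
    [Algebra L E] [Algebra L' E] [IsScalarTower K L E] [IsScalarTower K L' E] {n n' : ℕ}
    {σ : L ≃ₐ[K] L} {σ' : L' ≃ₐ[K] L'} {s s' : E ≃ₐ[K] E}

theorem Cross.fin_term (C : Cross K n n' σ σ' s s') (unrv : UNRVStmt) (valx : VALXStmt)
    (frb : FRBStmt) (rdn : RDNStmt) {α b z : K} (hα : α ≠ 0) (hb : b ≠ 0) (hz : z ≠ 0)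
    {γ δ : E} (hγδ : s' γ * δ = γ * s δ) (hγ : ∏ i ∈ range n, (s ^ i) γ = algebraMap K E α)
    (hδ : ∏ i ∈ range n', (s' ^ i) δ = algebraMap K E b) {y : L'}
    (hy : ∏ i ∈ range n', (σ' ^ i) y = algebraMap K L' z) (v : HeightOneSpectrum (𝓞 K))
    (hL : ∀ P : Ideal (𝓞 L), P.IsPrime → P ≠ ⊥ → dn K P = v.asIdeal → Unr σ P)
    (hL' : ∀ P : Ideal (𝓞 L'), P.IsPrime → P ≠ ⊥ → dn K P = v.asIdeal → Unr σ' P) {a e : ℕ}
    (ha : ∀ P : Ideal (𝓞 L), P.IsPrime → P ≠ ⊥ → dn K P = v.asIdeal →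
      Frob (σ ^ a) (Ideal.absNorm v.asIdeal) P)
    (he : ∀ P : Ideal (𝓞 L'), P.IsPrime → P ≠ ⊥ → dn K P = v.asIdeal →
      Frob (σ' ^ e) (Ideal.absNorm v.asIdeal) P) :
    (n : ℤ) * n' ∣ n' * (ordv v α * a) + n * (ordv v (b / z) * e) := by
  obtain ⟨w, hw⟩ := exists_above v E
  have hPL : (dn L w.asIdeal).IsPrime := dn_prime w.isPrime
  have hPL' : (dn L' w.asIdeal).IsPrime := dn_prime w.isPrime
  have hbL : dn L w.asIdeal ≠ ⊥ := dn_ne_bot w.ne_bot
  have hbL' : dn L' w.asIdeal ≠ ⊥ := dn_ne_bot w.ne_bot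
  have hvL : dn K (dn L w.asIdeal) = v.asIdeal := by rw [dn_dn, hw]
  have hvL' : dn K (dn L' w.asIdeal) = v.asIdeal := by rw [dn_dn, hw]
  have huL := hL _ hPL hbL hvL
  have huL' := hL' _ hPL' hbL' hvL'
  obtain ⟨hin, a', b', hab, ha', hb', -⟩ := frb K L L' E n n' σ σ' s s' C w huL huL'
  rw [hw] at hab ha' hb'
  have h1 := valx K L L' E n n' σ σ' s s' C α b hα hb γ δ hγδ hγ hδ w a' b' _ hab
  have hgal : IsGalois K E := C.galois
  rw [unrv K E v w hw hin, unrv K E v w hw hin] at h1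
  have h2 : (n' : ℤ) ∣ b' * ordv v z :=
    rdn K L' n' σ' C.cyc' v (dn L' w.asIdeal) hPL' hvL' huL' b' _ hb' y z hz hy
  have h3 := frob_unique C.cyc huL (ha _ hPL hbL hvL) ha'
  have h4 := frob_unique C.cyc' huL' (he _ hPL' hbL' hvL') hb'
  rw [C.cyc.pow_eq, ← Int.cast_natCast, ← Int.cast_natCast (R := ZMod n) a',
    ZMod.intCast_eq_intCast_iff_dvd_sub] at h3
  rw [C.cyc'.pow_eq, ← Int.cast_natCast, ← Int.cast_natCast (R := ZMod n') b',
    ZMod.intCast_eq_intCast_iff_dvd_sub] at h4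
  rw [ordv_div hb hz]
  refine dvd_aux h1 h2 ?_ ?_
  · rw [← neg_sub, dvd_neg]
    exact h3
  · rw [← neg_sub, dvd_neg]
    exact h4

theorem dvd_half {n n' c e : ℤ} (h1 : n ∣ 2 * c) (h2 : ¬ n ∣ c) (h3 : n' ∣ 2 * e)
    (h4 : ¬ n' ∣ e) : n * n' ∣ n' * c + n * e := by
  obtain ⟨t, ht⟩ := h1
  obtain ⟨u, hu⟩ := h3
  have hto : Odd t := by
    by_contra h
    rw [Int.not_odd_iff_even] at h
    obtain ⟨k, rfl⟩ := h
    exact h2 ⟨k, by linarith⟩
  have huo : Odd u := by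
    by_contra h
    rw [Int.not_odd_iff_even] at h
    obtain ⟨k, rfl⟩ := h
    exact h4 ⟨k, by linarith⟩
  obtain ⟨k, hk⟩ := hto.add_odd huo
  refine ⟨k, ?_⟩
  have : 2 * (n' * c + n * e) = 2 * (n * n' * k) := by
    linear_combination n' * ht + n * hu + n * n' * hk
  linarith

/-- the terms of the real places -/
theorem Cross.real_term (C : Cross K n n' σ σ' s s') (rp : RPStmt) (rs : RSStmt) (rq : RQStmt)
    {ℓ r k : ℕ} (hℓ : ℓ.Prime) (hn : n = ℓ ^ r) (hn' : n' = ℓ ^ k) {α b z : K} (hα : α ≠ 0)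
    (hb : b ≠ 0) (hz : z ≠ 0) {y : L'} (hy : ∏ i ∈ range n', (σ' ^ i) y = algebraMap K L' z)
    (φ : K →+* ℝ) {c e : ℕ} (hc : Cj σ φ c) (he : Cj σ' φ e) (h2 : ℓ = 2 → σ' ^ e ≠ 1)
    (hiff : NmR σ n φ α ↔ NmR σ' n' φ b) :
    (n : ℤ) * n' ∣ n' * (if φ α < 0 then (c : ℤ) else 0) +
      n * (if φ (b / z) < 0 then (e : ℤ) else 0) := by
  obtain ⟨hpos, hcc, hgl⟩ := rq K L n σ C.cyc φ
  obtain ⟨hpos', hcc', hgl'⟩ := rq K L' n' σ' C.cyc' φ
  have h2c : (n : ℤ) ∣ 2 * c := by exact_mod_cast hcc c hc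
  have h2e : (n' : ℤ) ∣ 2 * e := by exact_mod_cast hcc' e he
  by_cases hl : ℓ = 2
  · have hne := h2 hl
    have hzpos : 0 < φ z := rp K L' n' σ' C.cyc' φ e he hne z hz (hgl' z ⟨y, hy⟩)
    have hsgn : φ (b / z) < 0 ↔ φ b < 0 := by
      rw [map_div₀, div_neg_iff]
      constructor
      · rintro (h | h)
        · exact absurd h.2 (not_lt.mpr hzpos.le)
        · exact h.1
      · intro h
        exact Or.inr ⟨h, hzpos⟩
    have hφα : φ α ≠ 0 := (map_ne_zero φ).mpr hα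
    have hφb : φ b ≠ 0 := (map_ne_zero φ).mpr hb
    by_cases hs : σ ^ c = 1
    · have h1 : 0 < φ b :=
        rp K L' n' σ' C.cyc' φ e he hne b hb (hiff.mp (rs K L n σ C.cyc φ c hc hs α hα))
      rw [if_neg (fun h => absurd (hsgn.mp h) (not_lt.mpr h1.le)), mul_zero, add_zero]
      have h3 : (n : ℤ) ∣ c := by exact_mod_cast C.cyc.pow_eq_one.mp hs
      split_ifs
      · rw [mul_comm]
        exact mul_dvd_mul_left _ h3
      · simp
    · by_cases hpa : 0 < φ α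
      · have h1 : 0 < φ b :=
          rp K L' n' σ' C.cyc' φ e he hne b hb (hiff.mp (hpos α hpa))
        rw [if_neg (not_lt.mpr hpa.le), if_neg (fun h => absurd (hsgn.mp h) (not_lt.mpr h1.le))]
        simp
      · have hna : φ α < 0 := lt_of_le_of_ne (not_lt.mp hpa) hφα
        have hnb : φ b < 0 := by
          refine lt_of_le_of_ne (not_lt.mp fun h => ?_) hφb
          exact hpa (rp K L n σ C.cyc φ c hc hs α hα (hiff.mpr (hpos' b h)))
        rw [if_pos hna, if_pos (hsgn.mpr hnb)]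
        refine dvd_half h2c ?_ h2e ?_
        · intro h
          apply hs
          rw [C.cyc.pow_eq_one]
          exact_mod_cast h
        · intro h
          apply hne
          rw [C.cyc'.pow_eq_one]
          exact_mod_cast h
  · have hodd : ∀ t, IsCoprime ((ℓ ^ t : ℕ) : ℤ) 2 := by
      intro t
      rw [show (2 : ℤ) = ((2 : ℕ) : ℤ) by rfl, Nat.isCoprime_iff_coprime]
      exact Nat.Coprime.pow_left _ ((Nat.coprime_primes hℓ Nat.prime_two).mpr hl)
    have h3 : (n : ℤ) ∣ c := by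
      rw [hn] at h2c ⊢
      exact (hodd r).dvd_of_dvd_mul_left h2c
    have h4 : (n' : ℤ) ∣ e := by
      rw [hn'] at h2e ⊢
      exact (hodd k).dvd_of_dvd_mul_left h2e
    apply dvd_add
    · rw [mul_comm]
      apply mul_dvd_mul_left
      split_ifs
      · exact h3
      · simp
    · apply mul_dvd_mul_left
      split_ifs
      · exact h4
      · simp

end

end Vale.Agent.P022.C
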