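import Vale.Agent.P022.H567.Asm4

/-!
P022, reciprocity: the assembly in prime power degree.
-/

open NumberField IsDedekindDomain TensorProduct Finset

set_option linter.unusedSectionVars false
set_option linter.style.haveILetI false

noncomputable section

namespace Vale.Agent.P022.C

theorem natCast_mem_absNorm {K : Type} [Field K] [NumberField K] {I J : Ideal (𝓞 K)}
    (h : I ≤ J) : (Ideal.absNorm I : 𝓞 K) ∈ J := h (Ideal.absNorm_mem I)

theorem two_le_absNorm {K : Type} [Field K] [NumberField K] (v : HeightOneSpectrum (𝓞 K)) :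
    2 ≤ Ideal.absNorm v.asIdeal := by
  have h1 : Ideal.absNorm v.asIdeal ≠ 0 := by
    rw [Ne, Ideal.absNorm_eq_zero_iff]
    exact v.ne_bot
  have h2 : Ideal.absNorm v.asIdeal ≠ 1 := by
    rw [Ne, Ideal.absNorm_eq_one_iff]
    exact v.isPrime.ne_top
  omega

/-- reciprocity for the modulus `∏ p ^ (2 r + 1)` -/
theorem core (hnt : HNTStmt) (pow : POWStmt) (ln : LNStmt) (unrv : UNRVStmt) (cyc : CYCStmt)
    (cyf : CYFStmt) (nrec : NRECStmt) (comp : COMPStmt) (crs : CRSStmt) (valx : VALXStmt)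
    (frb : FRBStmt) (rdn : RDNStmt) (app : APPStmt) (rp : RPStmt) (rs : RSStmt) (rq : RQStmt)
    {K L : Type} [Field K] [NumberField K] [Field L] [NumberField L] [Algebra K L] {ℓ r : ℕ}
    (hℓ : ℓ.Prime) {σ : L ≃ₐ[K] L} (hC : Cyc K (ℓ ^ r) σ) {R : Finset ℕ}
    (hR : ∀ p ∈ R, p.Prime)
    (hu : ∀ P : Ideal (𝓞 L), P.IsPrime → P ≠ ⊥ → (∀ p ∈ R, (p : 𝓞 L) ∉ P) → Unr σ P) :
    RecLaw (ℓ ^ r) σ (md R (2 * r + 1)) := by
  classical
  intro a ha c hc α hα hm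
  set m := md R (2 * r + 1) with hmdef
  have hm0 : m ≠ 0 := md_ne hR
  have hαK : (α : K) ≠ 0 := by simpa using hα
  -- the support of `α`
  have hfinα := finite_mem hα
  let A : Finset ℕ := hfinα.toFinset.image (fun v => Ideal.absNorm v.asIdeal)
  have hA2 : ∀ q ∈ A, 2 ≤ q := by
    intro q hq
    obtain ⟨v, -, rfl⟩ := Finset.mem_image.mp hq
    exact two_le_absNorm v
  let Nα : ℕ := Ideal.absNorm (Ideal.span {α})
  have hNα : Nα ≠ 0 := by
    change Ideal.absNorm (Ideal.span {α}) ≠ 0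
    rw [Ne, Ideal.absNorm_eq_zero_iff, Ideal.span_singleton_eq_bot]
    exact hα
  let B : ℕ := (discr L).natAbs * (Nα * m)
  have hB : B ≠ 0 := Nat.mul_ne_zero (Int.natAbs_ne_zero.mpr (discr_ne_zero L))
    (Nat.mul_ne_zero hNα hm0)
  obtain ⟨M, k, χ, hM0, hMB, hχ, hA, hm1⟩ := cyc ℓ hℓ r A hA2 B hB
  have hMd : IsCoprime (M : ℤ) (discr L) := by
    have h1 : Nat.Coprime M (discr L).natAbs := Nat.Coprime.coprime_mul_right_right hMB
    rw [Int.isCoprime_iff_gcd_eq_one]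
    rw [Int.gcd, Int.natAbs_natCast]
    exact h1
  have hMN : Nat.Coprime M Nα :=
    Nat.Coprime.coprime_mul_right_right (Nat.Coprime.coprime_mul_left_right hMB)
  have hMm : Nat.Coprime M m :=
    Nat.Coprime.coprime_mul_left_right (Nat.Coprime.coprime_mul_left_right hMB)
  have hcop : ∀ (F : Type) [Field F] [NumberField F] (P : Ideal (𝓞 F)) (_ : P.IsPrime) (q : ℕ)
      (_ : Nat.Coprime M q), (M : 𝓞 F) ∈ P → (q : 𝓞 F) ∉ P := by
    intro F _ _ P hP q hq h1 h2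
    obtain ⟨x, y, hxy⟩ := Nat.isCoprime_iff_coprime.mpr hq
    apply hP.ne_top
    rw [Ideal.eq_top_iff_one]
    have h3 : ((x : 𝓞 F) * M + y * q) = 1 := by
      exact_mod_cast congrArg (Int.cast : ℤ → 𝓞 F) hxy
    rw [← h3]
    exact P.add_mem (P.mul_mem_left _ h1) (P.mul_mem_left _ h2)
  have hαM : ∀ v : HeightOneSpectrum (𝓞 K), (M : 𝓞 K) ∈ v.asIdeal → α ∉ v.asIdeal := by
    intro v h1 h2
    refine hcop K v.asIdeal v.isPrime Nα hMN h1 (natCast_mem_absNorm ?_)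
    rw [Ideal.span_le, Set.singleton_subset_iff]
    exact h2
  have hn'0 : 0 < ℓ ^ k := Nat.pow_pos hℓ.pos
  haveI : NeZero (ℓ ^ k) := ⟨hn'0.ne'⟩
  obtain ⟨L', _, _, _, σ', hC', hfield, hFr, hcj⟩ := cyf K L M hM0 hMd (ℓ ^ k) hn'0 χ hχ
  obtain ⟨E, _, _, _, _, _, _, _, s, s', C⟩ := comp K L L' _ _ σ σ' hC hC' hfield
  -- exponents
  let e : HeightOneSpectrum (𝓞 K) → ℕ := fun v => (ex χ (Ideal.absNorm v.asIdeal : ZMod M)).val
  let e1 : ℕ := (ex χ (-1)).val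
  have he : ∀ (P : Ideal (𝓞 L')) (v : HeightOneSpectrum (𝓞 K)), P.IsPrime → P ≠ ⊥ →
      (M : 𝓞 L') ∉ P → dn K P = v.asIdeal → Unr σ' P ∧ Frob (σ' ^ e v) (Ideal.absNorm v.asIdeal) P := by
    intro P v hP hP0 hMP hPv
    obtain ⟨h1, h2⟩ := hFr P hP hP0 hMP
    refine ⟨h1, ?_⟩
    have h3 := h2 (e v) (by rw [ZMod.natCast_zmod_val, hPv])
    rwa [hPv] at h3
  have he1 : ∀ φ : K →+* ℝ, Cj σ' φ e1 := fun φ ρ hρ =>
    hcj ρ φ hρ e1 (ZMod.natCast_zmod_val _)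
  have hne1 : ℓ = 2 → σ' ^ e1 ≠ 1 := by
    intro hl h1
    apply hm1 hl
    rw [hC'.pow_eq_one, ← ZMod.natCast_eq_zero_iff, ZMod.natCast_zmod_val] at h1
    exact h1
  -- local norms of `α` from `E/L'`
  have hbig : ∀ (P : Ideal (𝓞 L')), P.IsPrime → P ≠ ⊥ → α ∈ dn K P → Unr σ' P ∧ ∃ e : ℕ,
      Frob (σ' ^ e) (Ideal.absNorm (dn K P)) P ∧ ∀ i : ℕ, ℓ ^ k ∣ e * i → ℓ ^ r ∣ i := by
    intro P hP hP0 hαP
    let v : HeightOneSpectrum (𝓞 K) := ⟨dn K P, dn_prime hP, dn_ne_bot hP0⟩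
    have hMP : (M : 𝓞 L') ∉ P := fun h => hαM v (nat_mem_dn.mpr h) hαP
    obtain ⟨h1, h2⟩ := he P v hP hP0 hMP rfl
    refine ⟨h1, e v, h2, fun i hi => ?_⟩
    have hvA : Ideal.absNorm v.asIdeal ∈ A := by
      apply Finset.mem_image.mpr
      exact ⟨v, (Set.Finite.mem_toFinset _).mpr hαP, rfl⟩
    apply (hA _ hvA).2 i
    have h3 : ((e v * i : ℕ) : ZMod (ℓ ^ k)) = 0 := (ZMod.natCast_eq_zero_iff _ _).mpr hi
    rw [Nat.cast_mul, ZMod.natCast_zmod_val, mul_comm] at h3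
    rw [nsmul_eq_mul]
    exact h3
  have hlocE : Loc C.sl (ℓ ^ r) (algebraMap K L' (α : K)) := by
    refine ⟨fun w => C.loc_fin pow ln frb hℓ rfl hR hu hα hm hbig w, fun φ => ?_⟩
    exact C.loc_real hℓ rfl (fun hl φ => ⟨e1, he1 φ, hne1 hl⟩) _ φ
  obtain ⟨γ, hγ⟩ := hnt L' E _ C.sl C.cyc_sl (algebraMap K L' (α : K))
    (by rw [Ne, map_eq_zero]; exact hαK) hlocE
  have hγ' : ∏ i ∈ range (ℓ ^ r), (s ^ i) γ = algebraMap K E (α : K) := by
    rw [IsScalarTower.algebraMap_apply K L' E, ← hγ]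
    exact Finset.prod_congr rfl fun i _ => (C.sl_pow_apply i γ).symm
  obtain ⟨δ, b, hδ0, hb0, hγδ, hδ, hiff⟩ := crs K L L' E _ _ σ σ' s s' C (α : K) hαK γ hγ'
  -- approximation
  have hmM0 : m * M ≠ 0 := Nat.mul_ne_zero hm0 hM0.ne'
  let T : Set (HeightOneSpectrum (𝓞 K)) := {v | ((m * M : ℕ) : 𝓞 K) ∈ v.asIdeal}
  have hT : T.Finite := finite_mem (by exact_mod_cast hmM0)
  have hval : ∀ v : HeightOneSpectrum (𝓞 K), v.valuation K ((α : K) - 1) ≤ v.valuation K (m : K) := by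
    intro v
    obtain ⟨y, hy⟩ := hm
    apply val_sub_le
    refine ⟨y, ?_⟩
    have := congrArg (algebraMap (𝓞 K) K) hy
    simpa using this
  have hunrL : ∀ v : HeightOneSpectrum (𝓞 K), (m : 𝓞 K) ∉ v.asIdeal → ∀ P : Ideal (𝓞 L),
      P.IsPrime → P ≠ ⊥ → dn K P = v.asIdeal → Unr σ P := by
    intro v hmv P hP hP0 hPv
    apply hu P hP hP0
    intro p hp hpP
    apply hmv
    have h1 : (p : 𝓞 K) ∈ v.asIdeal := by
      rw [← hPv]
      exact nat_mem_dn.mpr hpP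
    have h2 : p ∣ m :=
      (dvd_pow_self p (by omega)).trans (Finset.dvd_prod_of_mem (fun q => q ^ (2 * r + 1)) hp)
    obtain ⟨t, ht⟩ := h2
    rw [ht, Nat.cast_mul]
    exact v.asIdeal.mul_mem_right _ h1
  have hTb : ∀ v ∈ T, Nm σ' (ℓ ^ k) (v.adicCompletion K) b := by
    intro v hv
    rw [← hiff (v.adicCompletion K)]
    have hv' : ((m * M : ℕ) : 𝓞 K) ∈ v.asIdeal := hv
    by_cases hmv : (m : 𝓞 K) ∈ v.asIdeal
    · exact nm_of_md pow hR hℓ hmv (hval v)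
    · have hMv : (M : 𝓞 K) ∈ v.asIdeal := by
        rw [Nat.cast_mul] at hv'
        exact (v.isPrime.mem_or_mem hv').resolve_left hmv
      obtain ⟨w, hw⟩ := exists_above v L
      exact ln K L _ σ hC v w.asIdeal w.isPrime hw (hunrL v hmv _ w.isPrime w.ne_bot hw) _ hαK
        (Or.inl (val_one_of_notMem (hαM v hMv)))
  obtain ⟨y, z, hz0, hy, hTz, hφz⟩ := app K L' _ σ' hC' T hT b hb0 hTb (m * M) hmM0
  have hbz0 : b / z ≠ 0 := div_ne_zero hb0 hz0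
  have hbT : ∀ v : HeightOneSpectrum (𝓞 K), ((m : 𝓞 K) ∈ v.asIdeal ∨ (M : 𝓞 K) ∈ v.asIdeal) →
      ordv v (b / z) = 0 := by
    intro v hv
    have hvT : ((m * M : ℕ) : 𝓞 K) ∈ v.asIdeal := by
      rw [Nat.cast_mul]
      rcases hv with h | h
      · exact v.asIdeal.mul_mem_right _ h
      · exact v.asIdeal.mul_mem_left _ h
    exact ordv_eq_zero (val_one_of_sub (lt_of_le_of_lt (hTz v hvT) (val_nat_lt.mpr hvT)))
  -- the norm congruence
  have hN := nrec K M hM0 (ℓ ^ k) χ (b / z) hbz0 (by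
    intro v hv
    have hvT : ((m * M : ℕ) : 𝓞 K) ∈ v.asIdeal := by
      rw [Nat.cast_mul]
      exact v.asIdeal.mul_mem_left _ hv
    refine (hTz v hvT).trans ?_
    rw [Nat.cast_mul, map_mul]
    exact mul_le_of_le_one_left' (val_nat_le v m))
  -- the finite places
  have hfin : ∀ v : HeightOneSpectrum (𝓞 K), ((ℓ ^ r : ℕ) : ℤ) * (ℓ ^ k : ℕ) ∣
      (ℓ ^ k : ℕ) * (ordv v (α : K) * a v) + (ℓ ^ r : ℕ) * (ordv v (b / z) * e v) := by
    intro v
    by_cases hmv : (m : 𝓞 K) ∈ v.asIdeal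
    · have h1 : ordv v (α : K) = 0 :=
        ordv_eq_zero (val_one_of_sub (lt_of_le_of_lt (hval v) (val_nat_lt.mpr hmv)))
      rw [h1, hbT v (Or.inl hmv)]
      simp
    · by_cases hMv : (M : 𝓞 K) ∈ v.asIdeal
      · have h1 : ordv v (α : K) = 0 := ordv_eq_zero (val_one_of_notMem (hαM v hMv))
        rw [h1, hbT v (Or.inr hMv)]
        simp
      · have hMP : ∀ P : Ideal (𝓞 L'), dn K P = v.asIdeal → (M : 𝓞 L') ∉ P := by
          intro P hP h
          apply hMv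
          rw [← hP]
          exact nat_mem_dn.mpr h
        exact C.fin_term unrv valx frb rdn hαK hb0 hz0 hγδ hγ' hδ hy v (hunrL v hmv)
          (fun P hP hP0 hPv => (he P v hP hP0 (hMP P hPv) hPv).1)
          (fun P hP hP0 hPv => ha v P hmv hP hPv)
          (fun P hP hP0 hPv => (he P v hP hP0 (hMP P hPv) hPv).2)
  -- the real places
  have hreal : ∀ φ : K →+* ℝ, ((ℓ ^ r : ℕ) : ℤ) * (ℓ ^ k : ℕ) ∣
      (ℓ ^ k : ℕ) * (if φ (α : K) < 0 then (c φ : ℤ) else 0) +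
      (ℓ ^ r : ℕ) * (if φ (b / z) < 0 then (e1 : ℤ) else 0) := by
    intro φ
    refine C.real_term rp rs rq hℓ rfl rfl hαK hb0 hz0 hy φ (hc φ) (he1 φ) hne1 ?_
    letI := φ.toAlgebra
    exact hiff ℝ
  -- sum
  have hsuppα := finite_supp hαK
  have hsuppb := finite_supp hbz0
  let F : Finset (HeightOneSpectrum (𝓞 K)) := hsuppα.toFinset ∪ hsuppb.toFinset
  have hs1 : (∑ᶠ v : HeightOneSpectrum (𝓞 K), ordv v (α : K) * (a v : ℤ)) =
      ∑ v ∈ F, ordv v (α : K) * (a v : ℤ) := by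
    apply finsum_eq_sum_of_support_subset
    intro v hv
    rw [Function.mem_support] at hv
    simp only [F, Finset.coe_union, Set.Finite.coe_toFinset]
    left
    intro h0
    apply hv
    rw [h0, zero_mul]
  have hs2 : (∑ᶠ v : HeightOneSpectrum (𝓞 K), ordv v (b / z) •
      ex χ (Ideal.absNorm v.asIdeal : ZMod M)) =
      ((∑ v ∈ F, ordv v (b / z) * (e v : ℤ) : ℤ) : ZMod (ℓ ^ k)) := by
    rw [finsum_eq_sum_of_support_subset (s := F), Int.cast_sum]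
    · refine Finset.sum_congr rfl fun v _ => ?_
      rw [Int.cast_mul, Int.cast_natCast, ZMod.natCast_zmod_val, zsmul_eq_mul]
    · intro v hv
      rw [Function.mem_support] at hv
      simp only [F, Finset.coe_union, Set.Finite.coe_toFinset]
      right
      intro h0
      apply hv
      rw [h0, zero_zsmul]
  have hr1 : (∑ᶠ φ ∈ {φ : K →+* ℝ | φ (α : K) < 0}, (c φ : ℤ)) =
      ∑ φ : K →+* ℝ, if φ (α : K) < 0 then (c φ : ℤ) else 0 := by
    rw [← finsum_eq_sum_of_fintype]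
    refine finsum_congr fun φ => ?_
    by_cases h : φ (α : K) < 0
    · simp [h]
    · simp [h]
  have hr2 : (Nat.card {φ : K →+* ℝ // φ (b / z) < 0} • ex χ (-1) : ZMod (ℓ ^ k)) =
      ((∑ φ : K →+* ℝ, if φ (b / z) < 0 then (e1 : ℤ) else 0 : ℤ) : ZMod (ℓ ^ k)) := by
    rw [← Finset.sum_filter, Finset.sum_const, Nat.card_eq_fintype_card, Fintype.card_subtype]
    rw [nsmul_eq_mul, nsmul_eq_mul, Int.cast_mul, Int.cast_natCast, Int.cast_natCast,
      ZMod.natCast_zmod_val]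
  rw [hs2, hr2, ← Int.cast_add, ZMod.intCast_zmod_eq_zero_iff_dvd] at hN
  rw [hs1, hr1]
  have hsum1 : ((ℓ ^ r : ℕ) : ℤ) * (ℓ ^ k : ℕ) ∣
      (ℓ ^ k : ℕ) * (∑ v ∈ F, ordv v (α : K) * (a v : ℤ)) +
      (ℓ ^ r : ℕ) * (∑ v ∈ F, ordv v (b / z) * (e v : ℤ)) := by
    rw [Finset.mul_sum, Finset.mul_sum, ← Finset.sum_add_distrib]
    exact Finset.dvd_sum fun v _ => hfin v
  have hsum2 : ((ℓ ^ r : ℕ) : ℤ) * (ℓ ^ k : ℕ) ∣
      (ℓ ^ k : ℕ) * (∑ φ : K →+* ℝ, if φ (α : K) < 0 then (c φ : ℤ) else 0) +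
      (ℓ ^ r : ℕ) * (∑ φ : K →+* ℝ, if φ (b / z) < 0 then (e1 : ℤ) else 0) := by
    rw [Finset.mul_sum, Finset.mul_sum, ← Finset.sum_add_distrib]
    exact Finset.dvd_sum fun φ _ => hreal φ
  have hsum3 := mul_dvd_mul_left (((ℓ ^ r : ℕ) : ℤ)) hN
  have hfinal := dvd_sub (dvd_add hsum1 hsum2) hsum3
  have hkey : ((ℓ ^ k : ℕ) : ℤ) * (ℓ ^ r : ℕ) ∣ (ℓ ^ k : ℕ) *
      ((∑ v ∈ F, ordv v (α : K) * (a v : ℤ)) +
        ∑ φ : K →+* ℝ, if φ (α : K) < 0 then (c φ : ℤ) else 0) := by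
    rw [mul_comm ((ℓ ^ k : ℕ) : ℤ) ((ℓ ^ r : ℕ) : ℤ)]
    have hre : ∀ a b c d x y : ℤ, x * (a + b) = x * a + y * c + (x * b + y * d) - y * (c + d) := by
      intro a b c d x y
      ring
    rw [hre _ _ (∑ v ∈ F, ordv v (b / z) * (e v : ℤ))
      (∑ φ : K →+* ℝ, if φ (b / z) < 0 then (e1 : ℤ) else 0) _ ((ℓ ^ r : ℕ) : ℤ)]
    exact hfinal
  exact Int.dvd_of_mul_dvd_mul_left (by exact_mod_cast hn'0.ne') hkey

/-- **[ASM]** reciprocity in prime power degree from the blocks -/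
theorem ASM (hnt : HNTStmt) (pow : POWStmt) (ln : LNStmt) (unrv : UNRVStmt) (cyc : CYCStmt)
    (cyf : CYFStmt) (nrec : NRECStmt) (comp : COMPStmt) (crs : CRSStmt) (valx : VALXStmt)
    (frb : FRBStmt) (rdn : RDNStmt) (app : APPStmt) (rp : RPStmt) (rs : RSStmt) (rq : RQStmt)
    (unf : UNFStmt) : RECPStmt := by
  classical
  intro K L _ _ _ _ _ ℓ r hℓ σ hC
  obtain ⟨B, hB0, hB⟩ := unf K L (ℓ ^ r) σ hC
  let R : Finset ℕ := B.primeFactors.filter fun p =>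
    ∃ P : Ideal (𝓞 L), P.IsPrime ∧ (p : 𝓞 L) ∈ P ∧ ¬ Unr σ P
  have hR : ∀ p ∈ R, p.Prime := fun p hp => Nat.prime_of_mem_primeFactors (Finset.mem_filter.mp hp).1
  have hu : ∀ P : Ideal (𝓞 L), P.IsPrime → P ≠ ⊥ → (∀ p ∈ R, (p : 𝓞 L) ∉ P) → Unr σ P := by
    intro P hP _ h
    by_contra hun
    have h1 := hB P hP hun
    -- a prime factor of `B` lies in `P`
    have h2 : ∃ p ∈ B.primeFactorsList, (p : 𝓞 L) ∈ P := by
      have h3 : ((B.primeFactorsList.prod : ℕ) : 𝓞 L) ∈ P := by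
        rw [Nat.prod_primeFactorsList hB0]
        exact h1
      have h4 : ∀ l : List ℕ, ((l.prod : ℕ) : 𝓞 L) ∈ P → ∃ p ∈ l, (p : 𝓞 L) ∈ P := by
        intro l
        induction l with
        | nil =>
          intro h5
          rw [List.prod_nil, Nat.cast_one] at h5
          exact absurd ((Ideal.eq_top_iff_one P).mpr h5) hP.ne_top
        | cons q l ih =>
          intro h5
          rw [List.prod_cons, Nat.cast_mul] at h5
          rcases hP.mem_or_mem h5 with h6 | h6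
          · exact ⟨q, List.mem_cons_self, h6⟩
          · obtain ⟨p, hp, hp2⟩ := ih h6
            exact ⟨p, List.mem_cons_of_mem _ hp, hp2⟩
      exact h4 _ h3
    obtain ⟨p, hp, hpP⟩ := h2
    refine h p ?_ hpP
    exact Finset.mem_filter.mpr ⟨Nat.mem_primeFactors_iff_mem_primeFactorsList.mpr hp,
      P, hP, hpP, hun⟩
  refine ⟨md R (2 * r + 1), md_ne hR, ?_, ?_, core hnt pow ln unrv cyc cyf nrec comp crs valx frb
    rdn app rp rs rq hℓ hC hR hu⟩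
  · intro p hp hpm
    exact (Finset.mem_filter.mp (prime_of_dvd_md hR hp hpm)).2
  · intro P hP hP0 hmP
    apply hu P hP hP0
    intro p hp hpP
    apply hmP
    have h2 : p ∣ md R (2 * r + 1) :=
      (dvd_pow_self p (by omega)).trans (Finset.dvd_prod_of_mem (fun q => q ^ (2 * r + 1)) hp)
    obtain ⟨t, ht⟩ := h2
    rw [ht, Nat.cast_mul]
    exact P.mul_mem_right _ hpP

end Vale.Agent.P022.C
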