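import Vale.Agent.P022.H567.GchF
import Vale.Agent.P022.H20.Top
import Vale.Agent.P022.H220.Top2
import Vale.Agent.P022.H933.Main2F
import Vale.Agent.P022.H353.Main3F

/-!
P022: every odd dihedral representation of the absolute Galois group of the rational numbers over
a finite extension of the 2-adic numbers satisfies the conclusion of Q1.
-/

open NumberField Matrix

noncomputable section

namespace Vale.Agent.P022.C

theorem topF : TopStmt := fun _ _ _ hK j E _ _ _ r hc ho hi hS hd =>
  H20.top X.MAIN2 H353.main3 GCHF H565.FRE hK j E r hc ho hi hS hd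

/-- **Q1 for all dihedral representations** -/
theorem q1_dihedral (E : Type) [NontriviallyNormedField E]
    [NormedAlgebra ℚ_[2] E] [FiniteDimensional ℚ_[2] E] (r : GQ →* GL (Fin 2) E)
    (hc : Continuous r) (ho : OddRep r) (hi : AbsIrr r)
    (hS : {p : ℕ | p.Prime ∧ ¬ UnrAt r p}.Finite) (hd : Dihedral r) : Q1Concl E r :=
  Vale.Agent.P022.q1_dihedral topF E r hc ho hi hS hd

end Vale.Agent.P022.C
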