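import Vale.Agent.P022.H567.Rec
import Vale.Agent.P022.H477.GCH
import Vale.Agent.P022.H651.FCH
import Vale.Agent.P022.H565.Fre
import Vale.Agent.P022.H851.TPQ
import Vale.Agent.P022.H851.POWC
import Vale.Agent.P022.H953.CPT
import Vale.Agent.P022.H953.PSI

/-!
P022: reciprocity for all continuous 2-adic characters of the absolute Galois group of a number
field.
-/

noncomputable section

namespace Vale.Agent.P022.C

/-- reciprocity for the continuous `2`-adic characters of `G_K` -/
theorem GCHF : GCHStmt :=
  H477.GC.GCH (H651.FCH REC) H565.FRE H851.TPQ H953.CPT H953.PSI H851.POWC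

end Vale.Agent.P022.C
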