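import Vale.Agent.P022.H567.Cft

/-!
P022, reciprocity: literals of the real places and of the finiteness of the ramification.
-/

open NumberField IsDedekindDomain TensorProduct Finset

noncomputable section

namespace Vale.Agent.P022.C

/-- `σ ^ c` is the complex conjugation over the real place `φ` -/
def Cj {K L : Type} [Field K] [Field L] [Algebra K L] (σ : L ≃ₐ[K] L) (φ : K →+* ℝ) (c : ℕ) :
    Prop :=
  ∀ ρ : L →+* ℂ, (∀ x, ρ (algebraMap K L x) = (φ x : ℂ)) →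
    ∀ x, starRingEnd ℂ (ρ x) = ρ ((σ ^ c) x)

/-- [RP] the norms are positive at a real place which becomes complex -/
def RPStmt : Prop := ∀ (K L : Type) [Field K] [NumberField K] [Field L] [NumberField L]
  [Algebra K L] (n : ℕ) (σ : L ≃ₐ[K] L) (_ : Cyc K n σ) (φ : K →+* ℝ) (c : ℕ)
  (_ : Cj σ φ c) (_ : σ ^ c ≠ 1) (a : K) (_ : a ≠ 0) (_ : NmR σ n φ a), 0 < φ a

/-- [RS] everything is a norm at a real place which stays real -/
def RSStmt : Prop := ∀ (K L : Type) [Field K] [NumberField K] [Field L] [NumberField L]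
  [Algebra K L] (n : ℕ) (σ : L ≃ₐ[K] L) (_ : Cyc K n σ) (φ : K →+* ℝ) (c : ℕ)
  (_ : Cj σ φ c) (_ : σ ^ c = 1) (a : K) (_ : a ≠ 0), NmR σ n φ a

/-- [RQ] positive elements are norms at real places; `σ ^ c` has order at most two -/
def RQStmt : Prop := ∀ (K L : Type) [Field K] [NumberField K] [Field L] [NumberField L]
  [Algebra K L] (n : ℕ) (σ : L ≃ₐ[K] L) (_ : Cyc K n σ) (φ : K →+* ℝ),
  (∀ a : K, 0 < φ a → NmR σ n φ a) ∧ (∀ c : ℕ, Cj σ φ c → n ∣ 2 * c) ∧
  (∀ a : K, (∃ y : L, ∏ i ∈ range n, (σ ^ i) y = algebraMap K L a) → NmR σ n φ a)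

/-- [UNF] finiteness of the ramification -/
def UNFStmt : Prop := ∀ (K L : Type) [Field K] [NumberField K] [Field L] [NumberField L]
  [Algebra K L] (n : ℕ) (σ : L ≃ₐ[K] L) (_ : Cyc K n σ), ∃ B : ℕ, B ≠ 0 ∧
  ∀ P : Ideal (𝓞 L), P.IsPrime → ¬ Unr σ P → (B : 𝓞 L) ∈ P

end Vale.Agent.P022.C
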